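import Vale.Agent.P154.Hel.CP.R4.W0
import Vale.Agent.P154.Hel.CP.R4.W1
import Vale.Agent.P154.Hel.CP.R4.W2
import Vale.Agent.P154.Hel.CP.R4.W3
import Vale.Agent.P154.Hel.CP.R4.W4
import Vale.Agent.P154.Hel.CP.R4.W5
import Vale.Agent.P154.Hel.CP.R4.W6
import Vale.Agent.P154.Hel.CP.R4.W7
import Vale.Agent.P154.Hel.CP.R4.W8
import Vale.Agent.P154.Hel.CP.R4.W9
import Vale.Agent.P154.Hel.CP.R4.W10


/-!
The forms of the planes on the unit square.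
-/

namespace Vale.Agent.P154.Hel.Direct.R4

open TM

/-- A cell. -/
theorem hF_1_0_0 : GoodC (tabsR X9) zF [] 1 0 0 :=
  goodC_split rfl rfl rfl rfl rfl (g_2_0_0.weakF) (g_2_1_0.weakF) (g_2_0_1.weakF) (g_2_1_1.weakF)

/-- A cell. -/
theorem hF_2_3_0 : GoodC (tabsR X9) zF [] 2 3 0 :=
  goodC_split rfl rfl rfl rfl rfl (g_3_6_0.weakF) (g_3_7_0.weakF) (g_3_6_1.weakF) (g_3_7_1.weakF)

/-- A cell. -/
theorem hF_1_1_0 : GoodC (tabsR X9) zF [] 1 1 0 :=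
  goodC_split rfl rfl rfl rfl rfl (g_2_2_0.weakF) (hF_2_3_0) (g_2_2_1.weakF) (g_2_3_1.weakF)

/-- A cell. -/
theorem hF_2_1_3 : GoodC (tabsR X9) zF [] 2 1 3 :=
  goodC_split rfl rfl rfl rfl rfl (g_3_2_6.weakF) (g_3_3_6.weakF) (g_3_2_7.weakF) (g_3_3_7.weakF)

/-- A cell. -/
theorem hF_1_0_1 : GoodC (tabsR X9) zF [] 1 0 1 :=
  goodC_split rfl rfl rfl rfl rfl (g_2_0_2.weakF) (g_2_1_2.weakF) (g_2_0_3.weakF) (hF_2_1_3)

/-- A cell. -/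
theorem hF_3_7_5 : GoodC (tabsR X9) zF [] 3 7 5 :=
  goodC_split rfl rfl rfl rfl rfl (g_4_14_10.weakF) (g_4_15_10.weakF) (g_4_14_11.weakF) (g_4_15_11.weakF)

/-- A cell. -/
theorem hF_2_3_2 : GoodC (tabsR X9) zF [] 2 3 2 :=
  goodC_split rfl rfl rfl rfl rfl (g_3_6_4.weakF) (g_3_7_4.weakF) (g_3_6_5.weakF) (hF_3_7_5)

/-- A cell. -/
theorem hF_4_14_15 : GoodC (tabsR X9) zF [] 4 14 15 :=
  goodC_split rfl rfl rfl rfl rfl (g_5_28_30.weakF) (g_5_29_30.weakF) (g_5_28_31.weakF) (g_5_29_31.weakF)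

/-- A cell. -/
theorem hF_4_15_15 : GoodC (tabsR X9) zF [] 4 15 15 :=
  goodC_split rfl rfl rfl rfl rfl (g_5_30_30.weakF) (g_5_31_30.weakF) (g_5_30_31.weakF) (g_5_31_31.weakF)

/-- A cell. -/
theorem hF_3_7_7 : GoodC (tabsR X9) zF [] 3 7 7 :=
  goodC_split rfl rfl rfl rfl rfl (g_4_14_14.weakF) (g_4_15_14.weakF) (hF_4_14_15) (hF_4_15_15)

/-- A cell. -/
theorem hF_2_3_3 : GoodC (tabsR X9) zF [] 2 3 3 :=
  goodC_split rfl rfl rfl rfl rfl (g_3_6_6.weakF) (g_3_7_6.weakF) (g_3_6_7.weakF) (hF_3_7_7)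

/-- A cell. -/
theorem hF_1_1_1 : GoodC (tabsR X9) zF [] 1 1 1 :=
  goodC_split rfl rfl rfl rfl rfl (g_2_2_2.weakF) (hF_2_3_2) (g_2_2_3.weakF) (hF_2_3_3)

/-- A cell. -/
theorem hF_0_0_0 : GoodC (tabsR X9) zF [] 0 0 0 :=
  goodC_split rfl rfl rfl rfl rfl (hF_1_0_0) (hF_1_1_0) (hF_1_0_1) (hF_1_1_1)

/-- Row F of every plane of the list, over the denominator `D`. -/
theorem rows {p : Plane} (hp : p ∈ planes) (D : ℕ) (hD : 0 < D) (x : Fin 3 → ℝ) (hx : ∀ i, 0 < x i) :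
    ∑ j, coef p.C D X9.length j * psi (expo X9 j) (-(1 / 2)) x + ((p.C0 : ℝ) / D) * yyv x + ((p.E : ℝ) / D) * mass x
        ≤ phiF (coef p.A D X9.length) (expo X9) x :=
  fast_rowF hX9 zF_eq hF_0_0_0 hp (lengths p hp).1 (lengths p hp).2 D hD x hx

end Vale.Agent.P154.Hel.Direct.R4
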