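import Vale.Agent.P154.Hel.FastZone

/-!
Data of a list of planes: the planes and their linear forms on the tables.
-/

namespace Vale.Agent.P154.Hel.Direct.R4

open TM

/-- A plane. -/
def p0 : Plane := ⟨[.ofNat 6729819, .ofNat 6383232, .ofNat 13404940, .ofNat 0, .ofNat 0, .ofNat 0, .ofNat 20971520, .ofNat 0, .negSucc 20971519], [.ofNat 26887492, .ofNat 25474088, .ofNat 53460068, .ofNat 0, .ofNat 0, .ofNat 0, .ofNat 83556740, .ofNat 0, .negSucc 83415123], .ofNat 0, .negSucc 98, .ofNat 0, .ofNat 0⟩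

/-- Its row F. -/
def f0 : List ℤ := [.negSucc 158890347, .negSucc 6729818, .negSucc 6383231, .negSucc 13404939, .ofNat 0, .ofNat 0, .ofNat 0, .negSucc 20971519, .ofNat 0, .ofNat 20971520, .ofNat 26887492, .ofNat 25474088, .ofNat 53460068, .ofNat 0, .ofNat 0, .ofNat 0, .ofNat 83556740, .ofNat 0, .negSucc 83415123, .ofNat 0]

/-- A plane. -/
def p1 : Plane := ⟨[.ofNat 3804810, .ofNat 8151559, .ofNat 13036360, .ofNat 0, .ofNat 0, .ofNat 0, .ofNat 20971520, .ofNat 0, .negSucc 20971519], [.ofNat 15192292, .ofNat 32493572, .ofNat 51912900, .ofNat 0, .ofNat 0, .ofNat 0, .ofNat 83390504, .ofNat 0, .negSucc 83180303], .ofNat 0, .negSucc 216, .ofNat 0, .ofNat 0⟩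

/-- Its row F. -/
def f1 : List ℤ := [.negSucc 149632035, .negSucc 3804809, .negSucc 8151558, .negSucc 13036359, .ofNat 0, .ofNat 0, .ofNat 0, .negSucc 20971519, .ofNat 0, .ofNat 20971520, .ofNat 15192292, .ofNat 32493572, .ofNat 51912900, .ofNat 0, .ofNat 0, .ofNat 0, .ofNat 83390504, .ofNat 0, .negSucc 83180303, .ofNat 0]

/-- A plane. -/
def p2 : Plane := ⟨[.ofNat 3889403, .ofNat 8291497, .ofNat 12846932, .ofNat 0, .ofNat 0, .ofNat 0, .ofNat 20971520, .ofNat 0, .negSucc 20971519], [.ofNat 15516296, .ofNat 32994184, .ofNat 51043800, .ofNat 0, .ofNat 0, .ofNat 0, .ofNat 83142108, .ofNat 0, .negSucc 82828911], .ofNat 0, .negSucc 484, .ofNat 0, .ofNat 0⟩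

/-- Its row F. -/
def f2 : List ℤ := [.negSucc 149678317, .negSucc 3889402, .negSucc 8291496, .negSucc 12846931, .ofNat 0, .ofNat 0, .ofNat 0, .negSucc 20971519, .ofNat 0, .ofNat 20971520, .ofNat 15516296, .ofNat 32994184, .ofNat 51043800, .ofNat 0, .ofNat 0, .ofNat 0, .ofNat 83142108, .ofNat 0, .negSucc 82828911, .ofNat 0]

/-- A plane. -/
def p3 : Plane := ⟨[.ofNat 5064512, .ofNat 7911691, .ofNat 12648770, .ofNat 0, .ofNat 0, .ofNat 0, .ofNat 20971520, .ofNat 0, .negSucc 20971519], [.ofNat 20177396, .ofNat 31401076, .ofNat 50087712, .ofNat 0, .ofNat 0, .ofNat 0, .ofNat 82766956, .ofNat 0, .negSucc 82303719], .ofNat 0, .negSucc 1078, .ofNat 0, .ofNat 0⟩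

/-- Its row F. -/
def f3 : List ℤ := [.negSucc 153006735, .negSucc 5064511, .negSucc 7911690, .negSucc 12648769, .ofNat 0, .ofNat 0, .ofNat 0, .negSucc 20971519, .ofNat 0, .ofNat 20971520, .ofNat 20177396, .ofNat 31401076, .ofNat 50087712, .ofNat 0, .ofNat 0, .ofNat 0, .ofNat 82766956, .ofNat 0, .negSucc 82303719, .ofNat 0]

/-- A plane. -/
def p4 : Plane := ⟨[.ofNat 6841037, .ofNat 7336760, .ofNat 12350435, .ofNat 0, .ofNat 0, .ofNat 0, .ofNat 20971520, .ofNat 0, .negSucc 20971519], [.ofNat 27200840, .ofNat 29005732, .ofNat 48659888, .ofNat 0, .ofNat 0, .ofNat 0, .ofNat 82203924, .ofNat 0, .negSucc 81520171], .ofNat 0, .negSucc 2409, .ofNat 0, .ofNat 0⟩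

/-- Its row F. -/
def f4 : List ℤ := [.negSucc 158039139, .negSucc 6841036, .negSucc 7336759, .negSucc 12350434, .ofNat 0, .ofNat 0, .ofNat 0, .negSucc 20971519, .ofNat 0, .ofNat 20971520, .ofNat 27200840, .ofNat 29005732, .ofNat 48659888, .ofNat 0, .ofNat 0, .ofNat 0, .ofNat 82203924, .ofNat 0, .negSucc 81520171, .ofNat 0]

/-- A plane. -/
def p5 : Plane := ⟨[.ofNat 9476992, .ofNat 6483578, .ofNat 11908911, .ofNat 0, .ofNat 0, .ofNat 0, .ofNat 20971520, .ofNat 0, .negSucc 20971519], [.ofNat 37560924, .ofNat 25482772, .ofNat 46555352, .ofNat 0, .ofNat 0, .ofNat 0, .ofNat 81350500, .ofNat 0, .negSucc 80354327], .ofNat 0, .negSucc 5215, .ofNat 0, .ofNat 0⟩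

/-- Its row F. -/
def f5 : List ℤ := [.negSucc 165441045, .negSucc 9476991, .negSucc 6483577, .negSucc 11908910, .ofNat 0, .ofNat 0, .ofNat 0, .negSucc 20971519, .ofNat 0, .ofNat 20971520, .ofNat 37560924, .ofNat 25482772, .ofNat 46555352, .ofNat 0, .ofNat 0, .ofNat 0, .ofNat 81350500, .ofNat 0, .negSucc 80354327, .ofNat 0]

/-- A plane. -/
def p6 : Plane := ⟨[.ofNat 13698622, .ofNat 5123960, .ofNat 11201142, .ofNat 0, .ofNat 0, .ofNat 0, .ofNat 20971520, .ofNat 0, .negSucc 20971519], [.ofNat 54042576, .ofNat 19936360, .ofNat 43286268, .ofNat 0, .ofNat 0, .ofNat 0, .ofNat 80101512, .ofNat 0, .negSucc 78626751], .ofNat 0, .negSucc 11868, .ofNat 0, .ofNat 0⟩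

/-- Its row F. -/
def f6 : List ℤ := [.negSucc 177408741, .negSucc 13698621, .negSucc 5123959, .negSucc 11201141, .ofNat 0, .ofNat 0, .ofNat 0, .negSucc 20971519, .ofNat 0, .ofNat 20971520, .ofNat 54042576, .ofNat 19936360, .ofNat 43286268, .ofNat 0, .ofNat 0, .ofNat 0, .ofNat 80101512, .ofNat 0, .negSucc 78626751, .ofNat 0]

/-- A plane. -/
def p7 : Plane := ⟨[.ofNat 19047691, .ofNat 3393658, .ofNat 10315726, .ofNat 0, .ofNat 0, .ofNat 0, .ofNat 20971520, .ofNat 0, .negSucc 20971519], [.ofNat 74624020, .ofNat 13046744, .ofNat 39215896, .ofNat 0, .ofNat 0, .ofNat 0, .ofNat 78374584, .ofNat 0, .negSucc 76384107], .ofNat 0, .negSucc 23799, .ofNat 0, .ofNat 0⟩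

/-- Its row F. -/
def f7 : List ℤ := [.negSucc 192192521, .negSucc 19047690, .negSucc 3393657, .negSucc 10315725, .ofNat 0, .ofNat 0, .ofNat 0, .negSucc 20971519, .ofNat 0, .ofNat 20971520, .ofNat 74624020, .ofNat 13046744, .ofNat 39215896, .ofNat 0, .ofNat 0, .ofNat 0, .ofNat 78374584, .ofNat 0, .negSucc 76384107, .ofNat 0]

/-- A plane. -/
def p8 : Plane := ⟨[.ofNat 20971520, .ofNat 2617313, .ofNat 10834093, .ofNat 0, .ofNat 0, .ofNat 0, .ofNat 20401830, .ofNat 0, .negSucc 20971519], [.ofNat 81816220, .ofNat 9997700, .ofNat 40765496, .ofNat 0, .ofNat 0, .ofNat 0, .ofNat 75149004, .ofNat 0, .negSucc 74987355], .ofNat 0, .negSucc 36504, .ofNat 0, .ofNat 0⟩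

/-- Its row F. -/
def f8 : List ℤ := [.negSucc 197702645, .negSucc 20971519, .negSucc 2617312, .negSucc 10834092, .ofNat 0, .ofNat 0, .ofNat 0, .negSucc 20401829, .ofNat 0, .ofNat 20971520, .ofNat 81816220, .ofNat 9997700, .ofNat 40765496, .ofNat 0, .ofNat 0, .ofNat 0, .ofNat 75149004, .ofNat 0, .negSucc 74987355, .ofNat 0]

/-- A plane. -/
def p9 : Plane := ⟨[.ofNat 8325122, .ofNat 5289871, .ofNat 20971520, .ofNat 0, .ofNat 0, .ofNat 0, .ofNat 14838625, .ofNat 0, .negSucc 20971519], [.ofNat 32338508, .ofNat 20005804, .ofNat 78101036, .ofNat 0, .ofNat 0, .ofNat 0, .ofNat 53943776, .ofNat 0, .negSucc 73712611], .ofNat 0, .negSucc 42183, .ofNat 0, .ofNat 0⟩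

/-- Its row F. -/
def f9 : List ℤ := [.negSucc 164361419, .negSucc 8325121, .negSucc 5289870, .negSucc 20971519, .ofNat 0, .ofNat 0, .ofNat 0, .negSucc 14838624, .ofNat 0, .ofNat 20971520, .ofNat 32338508, .ofNat 20005804, .ofNat 78101036, .ofNat 0, .ofNat 0, .ofNat 0, .ofNat 53943776, .ofNat 0, .negSucc 73712611, .ofNat 0]

/-- A plane. -/
def p10 : Plane := ⟨[.ofNat 8324345, .ofNat 5290278, .ofNat 20971520, .ofNat 0, .ofNat 0, .ofNat 0, .ofNat 14838599, .ofNat 0, .negSucc 20971519], [.ofNat 32335492, .ofNat 20007344, .ofNat 78097940, .ofNat 0, .ofNat 0, .ofNat 0, .ofNat 53946016, .ofNat 0, .negSucc 73712611], .ofNat 0, .negSucc 42183, .ofNat 0, .ofNat 0⟩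

/-- Its row F. -/
def f10 : List ℤ := [.negSucc 164357547, .negSucc 8324344, .negSucc 5290277, .negSucc 20971519, .ofNat 0, .ofNat 0, .ofNat 0, .negSucc 14838598, .ofNat 0, .ofNat 20971520, .ofNat 32335492, .ofNat 20007344, .ofNat 78097940, .ofNat 0, .ofNat 0, .ofNat 0, .ofNat 53946016, .ofNat 0, .negSucc 73712611, .ofNat 0]

/-- A plane. -/
def p11 : Plane := ⟨[.ofNat 8325236, .ofNat 5289811, .ofNat 20971520, .ofNat 0, .ofNat 0, .ofNat 0, .ofNat 14838629, .ofNat 0, .negSucc 20971519], [.ofNat 32338952, .ofNat 20005576, .ofNat 78101492, .ofNat 0, .ofNat 0, .ofNat 0, .ofNat 53943444, .ofNat 0, .negSucc 73712611], .ofNat 0, .negSucc 42182, .ofNat 0, .ofNat 0⟩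

/-- Its row F. -/
def f11 : List ℤ := [.negSucc 164361985, .negSucc 8325235, .negSucc 5289810, .negSucc 20971519, .ofNat 0, .ofNat 0, .ofNat 0, .negSucc 14838628, .ofNat 0, .ofNat 20971520, .ofNat 32338952, .ofNat 20005576, .ofNat 78101492, .ofNat 0, .ofNat 0, .ofNat 0, .ofNat 53943444, .ofNat 0, .negSucc 73712611, .ofNat 0]

/-- A plane. -/
def p12 : Plane := ⟨[.ofNat 0, .ofNat 0, .ofNat 9866127, .negSucc 1614855, .ofNat 0, .ofNat 16337393, .ofNat 7590697, .ofNat 0, .negSucc 20971519], [.ofNat 0, .ofNat 0, .ofNat 36277464, .negSucc 5904771, .ofNat 0, .ofNat 57324744, .ofNat 27158328, .ofNat 0, .negSucc 71993455], .ofNat 0, .negSucc 27172, .ofNat 0, .ofNat 0⟩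

/-- Its row F. -/
def f12 : List ℤ := [.negSucc 63254587, .ofNat 0, .ofNat 0, .negSucc 9866126, .ofNat 1614856, .ofNat 0, .negSucc 16337392, .negSucc 7590696, .ofNat 0, .ofNat 20971520, .ofNat 0, .ofNat 0, .ofNat 36277464, .negSucc 5904771, .ofNat 0, .ofNat 57324744, .ofNat 27158328, .ofNat 0, .negSucc 71993455, .ofNat 0]

/-- A plane. -/
def p13 : Plane := ⟨[.ofNat 0, .ofNat 0, .ofNat 10677719, .negSucc 876146, .ofNat 0, .ofNat 15225576, .ofNat 7863463, .ofNat 0, .negSucc 20971519], [.ofNat 0, .ofNat 0, .ofNat 39261664, .negSucc 3195223, .ofNat 0, .ofNat 53405172, .ofNat 28129136, .ofNat 0, .negSucc 71993455], .ofNat 0, .negSucc 28589, .ofNat 0, .ofNat 0⟩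

/-- Its row F. -/
def f13 : List ℤ := [.negSucc 67319221, .ofNat 0, .ofNat 0, .negSucc 10677718, .ofNat 876147, .ofNat 0, .negSucc 15225575, .negSucc 7863462, .ofNat 0, .ofNat 20971520, .ofNat 0, .ofNat 0, .ofNat 39261664, .negSucc 3195223, .ofNat 0, .ofNat 53405172, .ofNat 28129136, .ofNat 0, .negSucc 71993455, .ofNat 0]

/-- A plane. -/
def p14 : Plane := ⟨[.ofNat 0, .ofNat 0, .ofNat 11736779, .ofNat 0, .ofNat 0, .ofNat 13865693, .ofNat 8172291, .ofNat 0, .negSucc 20971519], [.ofNat 0, .ofNat 0, .ofNat 43155796, .ofNat 0, .ofNat 0, .ofNat 48623540, .ofNat 29228408, .ofNat 0, .negSucc 71993455], .ofNat 0, .negSucc 30354, .ofNat 0, .ofNat 0⟩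

/-- Its row F. -/
def f14 : List ℤ := [.negSucc 72361379, .ofNat 0, .ofNat 0, .negSucc 11736778, .ofNat 0, .ofNat 0, .negSucc 13865692, .negSucc 8172290, .ofNat 0, .ofNat 20971520, .ofNat 0, .ofNat 0, .ofNat 43155796, .ofNat 0, .ofNat 0, .ofNat 48623540, .ofNat 29228408, .ofNat 0, .negSucc 71993455, .ofNat 0]

/-- A plane. -/
def p15 : Plane := ⟨[.ofNat 0, .ofNat 0, .ofNat 5070081, .negSucc 7270021, .ofNat 0, .ofNat 20971520, .ofNat 4448389, .ofNat 3410087, .negSucc 20971519], [.ofNat 0, .ofNat 0, .ofNat 18517844, .negSucc 26357635, .ofNat 0, .ofNat 72736884, .ofNat 15757588, .ofNat 11646024, .negSucc 70941447], .ofNat 0, .negSucc 17179, .ofNat 0, .ofNat 0⟩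

/-- Its row F. -/
def f15 : List ℤ := [.negSucc 31367081, .ofNat 0, .ofNat 0, .negSucc 5070080, .ofNat 7270022, .ofNat 0, .negSucc 20971519, .negSucc 4448388, .negSucc 3410086, .ofNat 20971520, .ofNat 0, .ofNat 0, .ofNat 18517844, .negSucc 26357635, .ofNat 0, .ofNat 72736884, .ofNat 15757588, .ofNat 11646024, .negSucc 70941447, .ofNat 0]

/-- A plane. -/
def p16 : Plane := ⟨[.ofNat 0, .ofNat 0, .ofNat 5059024, .negSucc 7361398, .ofNat 0, .ofNat 20971520, .ofNat 4378956, .ofNat 3512001, .negSucc 20971519], [.ofNat 0, .ofNat 0, .ofNat 18477460, .negSucc 26612135, .ofNat 0, .ofNat 72685384, .ofNat 15511636, .ofNat 11994080, .negSucc 70941447], .ofNat 0, .negSucc 16989, .ofNat 0, .ofNat 0⟩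

/-- Its row F. -/
def f16 : List ℤ := [.negSucc 31018807, .ofNat 0, .ofNat 0, .negSucc 5059023, .ofNat 7361399, .ofNat 0, .negSucc 20971519, .negSucc 4378955, .negSucc 3512000, .ofNat 20971520, .ofNat 0, .ofNat 0, .ofNat 18477460, .negSucc 26612135, .ofNat 0, .ofNat 72685384, .ofNat 15511636, .ofNat 11994080, .negSucc 70941447, .ofNat 0]

/-- A plane. -/
def p17 : Plane := ⟨[.ofNat 0, .ofNat 0, .ofNat 7133313, .negSucc 1994806, .ofNat 0, .ofNat 10088895, .ofNat 5705376, .ofNat 8197841, .negSucc 20971519], [.ofNat 0, .ofNat 0, .ofNat 26013948, .negSucc 6964159, .ofNat 0, .ofNat 34885632, .ofNat 20158552, .ofNat 27936828, .negSucc 70941447], .ofNat 0, .negSucc 22853, .ofNat 0, .ofNat 0⟩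

/-- Its row F. -/
def f17 : List ℤ := [.negSucc 45814799, .ofNat 0, .ofNat 0, .negSucc 7133312, .ofNat 1994807, .ofNat 0, .negSucc 10088894, .negSucc 5705375, .negSucc 8197840, .ofNat 20971520, .ofNat 0, .ofNat 0, .ofNat 26013948, .negSucc 6964159, .ofNat 0, .ofNat 34885632, .ofNat 20158552, .ofNat 27936828, .negSucc 70941447, .ofNat 0]

/-- A plane. -/
def p18 : Plane := ⟨[.ofNat 1294839, .ofNat 0, .ofNat 4213220, .negSucc 11981320, .ofNat 3209891, .ofNat 20971520, .ofNat 1366463, .ofNat 5684059, .negSucc 20971519], [.ofNat 4974948, .ofNat 0, .ofNat 15322324, .negSucc 43180583, .ofNat 11123948, .ofNat 72134924, .ofNat 4814372, .ofNat 19258296, .negSucc 70214235], .ofNat 0, .negSucc 12534, .ofNat 0, .ofNat 0⟩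

/-- Its row F. -/
def f18 : List ℤ := [.negSucc 20868611, .negSucc 1294838, .ofNat 0, .negSucc 4213219, .ofNat 11981321, .negSucc 3209890, .negSucc 20971519, .negSucc 1366462, .negSucc 5684058, .ofNat 20971520, .ofNat 4974948, .ofNat 0, .ofNat 15322324, .negSucc 43180583, .ofNat 11123948, .ofNat 72134924, .ofNat 4814372, .ofNat 19258296, .negSucc 70214235, .ofNat 0]

/-- A plane. -/
def p19 : Plane := ⟨[.ofNat 1018650, .ofNat 0, .ofNat 3614390, .negSucc 10193962, .ofNat 1062821, .ofNat 20971520, .ofNat 2760852, .ofNat 5810647, .negSucc 20971519], [.ofNat 3913788, .ofNat 0, .ofNat 13144544, .negSucc 36626915, .ofNat 3679156, .ofNat 72075388, .ofNat 9716476, .ofNat 19654916, .negSucc 70214235], .ofNat 0, .negSucc 13536, .ofNat 0, .ofNat 0⟩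

/-- Its row F. -/
def f19 : List ℤ := [.negSucc 22512363, .negSucc 1018649, .ofNat 0, .negSucc 3614389, .ofNat 10193963, .negSucc 1062820, .negSucc 20971519, .negSucc 2760851, .negSucc 5810646, .ofNat 20971520, .ofNat 3913788, .ofNat 0, .ofNat 13144544, .negSucc 36626915, .ofNat 3679156, .ofNat 72075388, .ofNat 9716476, .ofNat 19654916, .negSucc 70214235, .ofNat 0]

/-- A plane. -/
def p20 : Plane := ⟨[.ofNat 741080, .ofNat 0, .ofNat 4511148, .negSucc 9230623, .ofNat 0, .ofNat 20971520, .ofNat 3364139, .ofNat 5347894, .negSucc 20971519], [.ofNat 2847328, .ofNat 0, .ofNat 16361316, .negSucc 31968907, .ofNat 0, .ofNat 71895264, .ofNat 11813712, .ofNat 18038684, .negSucc 70696475], .ofNat 0, .negSucc 15974, .ofNat 0, .ofNat 0⟩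

/-- Its row F. -/
def f20 : List ℤ := [.negSucc 27082615, .negSucc 741079, .ofNat 0, .negSucc 4511147, .ofNat 9230624, .ofNat 0, .negSucc 20971519, .negSucc 3364138, .negSucc 5347893, .ofNat 20971520, .ofNat 2847328, .ofNat 0, .ofNat 16361316, .negSucc 31968907, .ofNat 0, .ofNat 71895264, .ofNat 11813712, .ofNat 18038684, .negSucc 70696475, .ofNat 0]

/-- A plane. -/
def p21 : Plane := ⟨[.ofNat 4452362, .ofNat 0, .ofNat 2459917, .negSucc 15925398, .ofNat 5562938, .ofNat 20971520, .ofNat 0, .ofNat 7181815, .negSucc 20971519], [.ofNat 17100724, .ofNat 0, .ofNat 8902852, .negSucc 57091107, .ofNat 19170680, .ofNat 71614848, .ofNat 0, .ofNat 24118056, .negSucc 69572719], .ofNat 0, .negSucc 9497, .ofNat 0, .ofNat 0⟩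

/-- Its row F. -/
def f21 : List ℤ := [.negSucc 21004401, .negSucc 4452361, .ofNat 0, .negSucc 2459916, .ofNat 15925399, .negSucc 5562937, .negSucc 20971519, .ofNat 0, .negSucc 7181814, .ofNat 20971520, .ofNat 17100724, .ofNat 0, .ofNat 8902852, .negSucc 57091107, .ofNat 19170680, .ofNat 71614848, .ofNat 0, .ofNat 24118056, .negSucc 69572719, .ofNat 0]

/-- A plane. -/
def p22 : Plane := ⟨[.ofNat 6380044, .ofNat 0, .ofNat 786442, .negSucc 17085143, .ofNat 5158222, .ofNat 20971520, .ofNat 258148, .ofNat 8431968, .negSucc 20971519], [.ofNat 24477116, .ofNat 0, .ofNat 2846264, .negSucc 61052215, .ofNat 17755300, .ofNat 71526012, .ofNat 905720, .ofNat 28312680, .negSucc 69572719], .ofNat 0, .negSucc 7613, .ofNat 0, .ofNat 0⟩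

/-- Its row F. -/
def f22 : List ℤ := [.negSucc 22521723, .negSucc 6380043, .ofNat 0, .negSucc 786441, .ofNat 17085144, .negSucc 5158221, .negSucc 20971519, .negSucc 258147, .negSucc 8431967, .ofNat 20971520, .ofNat 24477116, .ofNat 0, .ofNat 2846264, .negSucc 61052215, .ofNat 17755300, .ofNat 71526012, .ofNat 905720, .ofNat 28312680, .negSucc 69572719, .ofNat 0]

/-- A plane. -/
def p23 : Plane := ⟨[.ofNat 398880, .ofNat 0, .ofNat 2210246, .negSucc 4238875, .ofNat 0, .ofNat 1986006, .ofNat 2402866, .ofNat 20971520, .negSucc 20971519], [.ofNat 1529452, .ofNat 0, .ofNat 7976444, .negSucc 14572795, .ofNat 0, .ofNat 6752772, .ofNat 8377200, .ofNat 70145624, .negSucc 69644591], .ofNat 0, .negSucc 10232, .ofNat 0, .ofNat 0⟩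

/-- Its row F. -/
def f23 : List ℤ := [.negSucc 15589497, .negSucc 398879, .ofNat 0, .negSucc 2210245, .ofNat 4238876, .ofNat 0, .negSucc 1986005, .negSucc 2402865, .negSucc 20971519, .ofNat 20971520, .ofNat 1529452, .ofNat 0, .ofNat 7976444, .negSucc 14572795, .ofNat 0, .ofNat 6752772, .ofNat 8377200, .ofNat 70145624, .negSucc 69644591, .ofNat 0]

/-- A plane. -/
def p24 : Plane := ⟨[.ofNat 7542782, .ofNat 0, .ofNat 0, .negSucc 18279451, .ofNat 5675345, .ofNat 20971520, .ofNat 0, .ofNat 9023383, .negSucc 20971519], [.ofNat 28911344, .ofNat 0, .ofNat 0, .negSucc 65165247, .ofNat 19409044, .ofNat 71040076, .ofNat 0, .ofNat 30059668, .negSucc 68903359], .ofNat 0, .negSucc 6719, .ofNat 0, .ofNat 0⟩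

/-- Its row F. -/
def f24 : List ℤ := [.negSucc 22765491, .negSucc 7542781, .ofNat 0, .ofNat 0, .ofNat 18279452, .negSucc 5675344, .negSucc 20971519, .ofNat 0, .negSucc 9023382, .ofNat 20971520, .ofNat 28911344, .ofNat 0, .ofNat 0, .negSucc 65165247, .ofNat 19409044, .ofNat 71040076, .ofNat 0, .ofNat 30059668, .negSucc 68903359, .ofNat 0]

/-- A plane. -/
def p25 : Plane := ⟨[.ofNat 7655409, .ofNat 0, .ofNat 0, .negSucc 18376338, .ofNat 5691722, .ofNat 20971520, .ofNat 0, .ofNat 9045853, .negSucc 20971519], [.ofNat 29308452, .ofNat 0, .ofNat 0, .negSucc 65289595, .ofNat 19440048, .ofNat 70953536, .ofNat 0, .ofNat 30102284, .negSucc 68903359], .ofNat 0, .negSucc 6709, .ofNat 0, .ofNat 0⟩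

/-- Its row F. -/
def f25 : List ℤ := [.negSucc 23176017, .negSucc 7655408, .ofNat 0, .ofNat 0, .ofNat 18376339, .negSucc 5691721, .negSucc 20971519, .ofNat 0, .negSucc 9045852, .ofNat 20971520, .ofNat 29308452, .ofNat 0, .ofNat 0, .negSucc 65289595, .ofNat 19440048, .ofNat 70953536, .ofNat 0, .ofNat 30102284, .negSucc 68903359, .ofNat 0]

/-- A plane. -/
def p26 : Plane := ⟨[.ofNat 1415173, .ofNat 0, .ofNat 827275, .negSucc 4115390, .ofNat 0, .ofNat 0, .ofNat 2152599, .ofNat 20971520, .negSucc 18867317], [.ofNat 5417940, .ofNat 0, .ofNat 2971700, .negSucc 14038815, .ofNat 0, .ofNat 0, .ofNat 7452048, .ofNat 69487668, .negSucc 62060823], .ofNat 0, .negSucc 7921, .ofNat 0, .ofNat 0⟩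

/-- Its row F. -/
def f26 : List ℤ := [.negSucc 13675871, .negSucc 1415172, .ofNat 0, .negSucc 827274, .ofNat 4115391, .ofNat 0, .ofNat 0, .negSucc 2152598, .negSucc 20971519, .ofNat 18867318, .ofNat 5417940, .ofNat 0, .ofNat 2971700, .negSucc 14038815, .ofNat 0, .ofNat 0, .ofNat 7452048, .ofNat 69487668, .negSucc 62060823, .ofNat 0]

/-- A plane. -/
def p27 : Plane := ⟨[.ofNat 7479179, .ofNat 0, .ofNat 0, .negSucc 18253009, .ofNat 5730883, .ofNat 20971520, .ofNat 0, .ofNat 8976127, .negSucc 20971519], [.ofNat 28606084, .ofNat 0, .ofNat 0, .negSucc 64748927, .ofNat 19466896, .ofNat 70522928, .ofNat 0, .ofNat 29663696, .negSucc 68312055], .ofNat 0, .negSucc 6953, .ofNat 0, .ofNat 0⟩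

/-- Its row F. -/
def f27 : List ℤ := [.negSucc 22516973, .negSucc 7479178, .ofNat 0, .ofNat 0, .ofNat 18253010, .negSucc 5730882, .negSucc 20971519, .ofNat 0, .negSucc 8976126, .ofNat 20971520, .ofNat 28606084, .ofNat 0, .ofNat 0, .negSucc 64748927, .ofNat 19466896, .ofNat 70522928, .ofNat 0, .ofNat 29663696, .negSucc 68312055, .ofNat 0]

/-- A plane. -/
def p28 : Plane := ⟨[.ofNat 7728769, .ofNat 0, .ofNat 0, .negSucc 18381617, .ofNat 5592449, .ofNat 20971520, .ofNat 0, .ofNat 9110180, .negSucc 20971519], [.ofNat 29560708, .ofNat 0, .ofNat 0, .negSucc 64975723, .ofNat 18972188, .ofNat 70445420, .ofNat 0, .ofNat 30057956, .negSucc 68312055], .ofNat 0, .negSucc 7505, .ofNat 0, .ofNat 0⟩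

/-- Its row F. -/
def f28 : List ℤ := [.negSucc 23382411, .negSucc 7728768, .ofNat 0, .ofNat 0, .ofNat 18381618, .negSucc 5592448, .negSucc 20971519, .ofNat 0, .negSucc 9110179, .ofNat 20971520, .ofNat 29560708, .ofNat 0, .ofNat 0, .negSucc 64975723, .ofNat 18972188, .ofNat 70445420, .ofNat 0, .ofNat 30057956, .negSucc 68312055, .ofNat 0]

/-- A plane. -/
def p29 : Plane := ⟨[.ofNat 20971520, .ofNat 0, .ofNat 3151317, .negSucc 20971519, .ofNat 0, .ofNat 8141599, .ofNat 2377563, .ofNat 20916506, .negSucc 20971519], [.ofNat 80111720, .ofNat 0, .ofNat 11258184, .negSucc 52098571, .ofNat 0, .ofNat 27282684, .ofNat 8206744, .ofNat 68803504, .negSucc 81236139], .ofNat 0, .negSucc 24851, .ofNat 0, .ofNat 0⟩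

/-- Its row F. -/
def f29 : List ℤ := [.negSucc 97375613, .negSucc 20971519, .ofNat 0, .negSucc 3151316, .ofNat 20971520, .ofNat 0, .negSucc 8141598, .negSucc 2377562, .negSucc 20916505, .ofNat 20971520, .ofNat 80111720, .ofNat 0, .ofNat 11258184, .negSucc 52098571, .ofNat 0, .ofNat 27282684, .ofNat 8206744, .ofNat 68803504, .negSucc 81236139, .ofNat 0]

/-- A plane. -/
def p30 : Plane := ⟨[.ofNat 7475105, .ofNat 0, .ofNat 0, .negSucc 18258036, .ofNat 5758554, .ofNat 20971520, .ofNat 0, .ofNat 8957029, .negSucc 20971519], [.ofNat 28545408, .ofNat 0, .ofNat 0, .negSucc 64489383, .ofNat 19446148, .ofNat 70087860, .ofNat 0, .ofNat 29395068, .negSucc 67805115], .ofNat 0, .negSucc 7515, .ofNat 0, .ofNat 0⟩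

/-- Its row F. -/
def f30 : List ℤ := [.negSucc 22479633, .negSucc 7475104, .ofNat 0, .ofNat 0, .ofNat 18258037, .negSucc 5758553, .negSucc 20971519, .ofNat 0, .negSucc 8957028, .ofNat 20971520, .ofNat 28545408, .ofNat 0, .ofNat 0, .negSucc 64489383, .ofNat 19446148, .ofNat 70087860, .ofNat 0, .ofNat 29395068, .negSucc 67805115, .ofNat 0]

/-- A plane. -/
def p31 : Plane := ⟨[.ofNat 7615879, .ofNat 0, .ofNat 0, .negSucc 18375637, .ofNat 5768638, .ofNat 20971520, .ofNat 0, .ofNat 8991236, .negSucc 20971519], [.ofNat 29082984, .ofNat 0, .ofNat 0, .negSucc 64668091, .ofNat 19463008, .ofNat 69993176, .ofNat 0, .ofNat 29457788, .negSucc 67805115], .ofNat 0, .negSucc 7531, .ofNat 0, .ofNat 0⟩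

/-- Its row F. -/
def f31 : List ℤ := [.negSucc 23032201, .negSucc 7615878, .ofNat 0, .ofNat 0, .ofNat 18375638, .negSucc 5768637, .negSucc 20971519, .ofNat 0, .negSucc 8991235, .ofNat 20971520, .ofNat 29082984, .ofNat 0, .ofNat 0, .negSucc 64668091, .ofNat 19463008, .ofNat 69993176, .ofNat 0, .ofNat 29457788, .negSucc 67805115, .ofNat 0]

/-- A plane. -/
def p32 : Plane := ⟨[.ofNat 20971520, .ofNat 0, .ofNat 2443074, .negSucc 20971519, .ofNat 147976, .ofNat 7906850, .ofNat 2118966, .ofNat 20971520, .negSucc 20496051], [.ofNat 79981828, .ofNat 0, .ofNat 8715632, .negSucc 52965419, .ofNat 498700, .ofNat 26327308, .ofNat 7275528, .ofNat 68497844, .negSucc 78462771], .ofNat 0, .negSucc 25801, .ofNat 0, .ofNat 0⟩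

/-- Its row F. -/
def f32 : List ℤ := [.negSucc 93501023, .negSucc 20971519, .ofNat 0, .negSucc 2443073, .ofNat 20971520, .negSucc 147975, .negSucc 7906849, .negSucc 2118965, .negSucc 20971519, .ofNat 20496052, .ofNat 79981828, .ofNat 0, .ofNat 8715632, .negSucc 52965419, .ofNat 498700, .ofNat 26327308, .ofNat 7275528, .ofNat 68497844, .negSucc 78462771, .ofNat 0]

/-- A plane. -/
def p33 : Plane := ⟨[.ofNat 7150467, .ofNat 1522563, .ofNat 0, .negSucc 20011057, .ofNat 5300140, .ofNat 20971520, .ofNat 0, .ofNat 9778639, .negSucc 20971519], [.ofNat 27261104, .ofNat 5542972, .ofNat 0, .negSucc 70367515, .ofNat 17813920, .ofNat 69644064, .ofNat 0, .ofNat 31843504, .negSucc 67283075], .ofNat 0, .negSucc 6850, .ofNat 0, .ofNat 0⟩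

/-- Its row F. -/
def f33 : List ℤ := [.negSucc 21414739, .negSucc 7150466, .negSucc 1522562, .ofNat 0, .ofNat 20011058, .negSucc 5300139, .negSucc 20971519, .ofNat 0, .negSucc 9778638, .ofNat 20971520, .ofNat 27261104, .ofNat 5542972, .ofNat 0, .negSucc 70367515, .ofNat 17813920, .ofNat 69644064, .ofNat 0, .ofNat 31843504, .negSucc 67283075, .ofNat 0]

/-- A plane. -/
def p34 : Plane := ⟨[.ofNat 7246630, .ofNat 1851255, .ofNat 0, .negSucc 20540716, .ofNat 5253178, .ofNat 20971520, .ofNat 0, .ofNat 9972477, .negSucc 20971519], [.ofNat 27627728, .ofNat 6739596, .ofNat 0, .negSucc 71957027, .ofNat 17619132, .ofNat 69537044, .ofNat 0, .ofNat 32435864, .negSucc 67283075], .ofNat 0, .negSucc 6801, .ofNat 0, .ofNat 0⟩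

/-- Its row F. -/
def f34 : List ℤ := [.negSucc 21859269, .negSucc 7246629, .negSucc 1851254, .ofNat 0, .ofNat 20540717, .negSucc 5253177, .negSucc 20971519, .ofNat 0, .negSucc 9972476, .ofNat 20971520, .ofNat 27627728, .ofNat 6739596, .ofNat 0, .negSucc 71957027, .ofNat 17619132, .ofNat 69537044, .ofNat 0, .ofNat 32435864, .negSucc 67283075, .ofNat 0]

/-- A plane. -/
def p35 : Plane := ⟨[.ofNat 20971520, .ofNat 0, .ofNat 1601271, .negSucc 20971519, .ofNat 802268, .ofNat 6786912, .ofNat 1516237, .ofNat 20971520, .negSucc 19360546], [.ofNat 79847548, .ofNat 0, .ofNat 5681524, .negSucc 53896727, .ofNat 2679664, .ofNat 22449020, .ofNat 5177556, .ofNat 67996616, .negSucc 73533195], .ofNat 0, .negSucc 23668, .ofNat 0, .ofNat 0⟩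

/-- Its row F. -/
def f35 : List ℤ := [.negSucc 88121347, .negSucc 20971519, .ofNat 0, .negSucc 1601270, .ofNat 20971520, .negSucc 802267, .negSucc 6786911, .negSucc 1516236, .negSucc 20971519, .ofNat 19360547, .ofNat 79847548, .ofNat 0, .ofNat 5681524, .negSucc 53896727, .ofNat 2679664, .ofNat 22449020, .ofNat 5177556, .ofNat 67996616, .negSucc 73533195, .ofNat 0]

/-- A plane. -/
def p36 : Plane := ⟨[.ofNat 6943810, .ofNat 2350109, .ofNat 0, .negSucc 20971519, .ofNat 5126038, .ofNat 20971520, .ofNat 0, .ofNat 10176890, .negSucc 20971519], [.ofNat 26428452, .ofNat 8527104, .ofNat 0, .negSucc 73405639, .ofNat 17120964, .ofNat 69167048, .ofNat 0, .ofNat 32912704, .negSucc 66745583], .ofNat 0, .negSucc 6634, .ofNat 0, .ofNat 0⟩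

/-- Its row F. -/
def f36 : List ℤ := [.negSucc 20746171, .negSucc 6943809, .negSucc 2350108, .ofNat 0, .ofNat 20971520, .negSucc 5126037, .negSucc 20971519, .ofNat 0, .negSucc 10176889, .ofNat 20971520, .ofNat 26428452, .ofNat 8527104, .ofNat 0, .negSucc 73405639, .ofNat 17120964, .ofNat 69167048, .ofNat 0, .ofNat 32912704, .negSucc 66745583, .ofNat 0]

/-- A plane. -/
def p37 : Plane := ⟨[.ofNat 7185339, .ofNat 2219224, .ofNat 0, .negSucc 20971519, .ofNat 5141805, .ofNat 20971520, .ofNat 0, .ofNat 10171383, .negSucc 20971519], [.ofNat 27347728, .ofNat 8052204, .ofNat 0, .negSucc 73118063, .ofNat 17132876, .ofNat 69067040, .ofNat 0, .ofNat 32837548, .negSucc 66745583], .ofNat 0, .negSucc 6898, .ofNat 0, .ofNat 0⟩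

/-- Its row F. -/
def f37 : List ℤ := [.negSucc 21641235, .negSucc 7185338, .negSucc 2219223, .ofNat 0, .ofNat 20971520, .negSucc 5141804, .negSucc 20971519, .ofNat 0, .negSucc 10171382, .ofNat 20971520, .ofNat 27347728, .ofNat 8052204, .ofNat 0, .negSucc 73118063, .ofNat 17132876, .ofNat 69067040, .ofNat 0, .ofNat 32837548, .negSucc 66745583, .ofNat 0]

/-- A plane. -/
def p38 : Plane := ⟨[.ofNat 20971520, .ofNat 0, .ofNat 0, .negSucc 20971519, .ofNat 1126869, .ofNat 6536850, .ofNat 1322953, .ofNat 20971520, .negSucc 18594957], [.ofNat 79708732, .ofNat 0, .ofNat 0, .negSucc 55607315, .ofNat 3739452, .ofNat 21473780, .ofNat 4491916, .ofNat 67480432, .negSucc 69361983], .ofNat 0, .negSucc 19616, .ofNat 0, .ofNat 0⟩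

/-- Its row F. -/
def f38 : List ℤ := [.negSucc 81084321, .negSucc 20971519, .ofNat 0, .ofNat 0, .ofNat 20971520, .negSucc 1126868, .negSucc 6536849, .negSucc 1322952, .negSucc 20971519, .ofNat 18594958, .ofNat 79708732, .ofNat 0, .ofNat 0, .negSucc 55607315, .ofNat 3739452, .ofNat 21473780, .ofNat 4491916, .ofNat 67480432, .negSucc 69361983, .ofNat 0]

/-- A plane. -/
def p39 : Plane := ⟨[.ofNat 6942699, .ofNat 2360191, .ofNat 0, .negSucc 20971519, .ofNat 5101388, .ofNat 20971520, .ofNat 0, .ofNat 10191102, .negSucc 20971519], [.ofNat 26377948, .ofNat 8540220, .ofNat 0, .negSucc 73055575, .ofNat 16928080, .ofNat 68694912, .ofNat 0, .ofNat 32690364, .negSucc 66192287], .ofNat 0, .negSucc 6751, .ofNat 0, .ofNat 0⟩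

/-- Its row F. -/
def f39 : List ℤ := [.negSucc 20706095, .negSucc 6942698, .negSucc 2360190, .ofNat 0, .ofNat 20971520, .negSucc 5101387, .negSucc 20971519, .ofNat 0, .negSucc 10191101, .ofNat 20971520, .ofNat 26377948, .ofNat 8540220, .ofNat 0, .negSucc 73055575, .ofNat 16928080, .ofNat 68694912, .ofNat 0, .ofNat 32690364, .negSucc 66192287, .ofNat 0]

/-- A plane. -/
def p40 : Plane := ⟨[.ofNat 6868358, .ofNat 2584104, .ofNat 0, .negSucc 20971519, .ofNat 5069610, .ofNat 20008354, .ofNat 0, .ofNat 10993881, .negSucc 20971519], [.ofNat 26095504, .ofNat 9337844, .ofNat 0, .negSucc 72758899, .ofNat 16797576, .ofNat 65432992, .ofNat 0, .ofNat 35204732, .negSucc 66192287], .ofNat 0, .negSucc 6395, .ofNat 0, .ofNat 0⟩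

/-- Its row F. -/
def f40 : List ℤ := [.negSucc 20659593, .negSucc 6868357, .negSucc 2584103, .ofNat 0, .ofNat 20971520, .negSucc 5069609, .negSucc 20008353, .ofNat 0, .negSucc 10993880, .ofNat 20971520, .ofNat 26095504, .ofNat 9337844, .ofNat 0, .negSucc 72758899, .ofNat 16797576, .ofNat 65432992, .ofNat 0, .ofNat 35204732, .negSucc 66192287, .ofNat 0]

/-- A plane. -/
def p41 : Plane := ⟨[.ofNat 20971520, .ofNat 0, .ofNat 151238, .negSucc 20971519, .ofNat 1555424, .ofNat 5705821, .ofNat 908644, .ofNat 20971520, .negSucc 18064302], [.ofNat 79565232, .ofNat 0, .ofNat 530404, .negSucc 55392587, .ofNat 5126856, .ofNat 18610636, .ofNat 3067032, .ofNat 66948936, .negSucc 67104039], .ofNat 0, .negSucc 20062, .ofNat 0, .ofNat 0⟩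

/-- Its row F. -/
def f41 : List ℤ := [.negSucc 80208121, .negSucc 20971519, .ofNat 0, .negSucc 151237, .ofNat 20971520, .negSucc 1555423, .negSucc 5705820, .negSucc 908643, .negSucc 20971519, .ofNat 18064303, .ofNat 79565232, .ofNat 0, .ofNat 530404, .negSucc 55392587, .ofNat 5126856, .ofNat 18610636, .ofNat 3067032, .ofNat 66948936, .negSucc 67104039, .ofNat 0]

/-- A plane. -/
def p42 : Plane := ⟨[.ofNat 5842166, .ofNat 4228930, .ofNat 0, .negSucc 20971519, .ofNat 4102861, .ofNat 15789487, .ofNat 0, .ofNat 15010250, .negSucc 20971519], [.ofNat 22156356, .ofNat 15247636, .ofNat 0, .negSucc 72694431, .ofNat 13523020, .ofNat 51373064, .ofNat 0, .ofNat 47758200, .negSucc 65622851], .ofNat 0, .negSucc 4704, .ofNat 0, .ofNat 0⟩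

/-- Its row F. -/
def f42 : List ℤ := [.negSucc 17411265, .negSucc 5842165, .negSucc 4228929, .ofNat 0, .ofNat 20971520, .negSucc 4102860, .negSucc 15789486, .ofNat 0, .negSucc 15010249, .ofNat 20971520, .ofNat 22156356, .ofNat 15247636, .ofNat 0, .negSucc 72694431, .ofNat 13523020, .ofNat 51373064, .ofNat 0, .ofNat 47758200, .negSucc 65622851, .ofNat 0]

/-- A plane. -/
def p43 : Plane := ⟨[.ofNat 5816716, .ofNat 4520543, .ofNat 0, .negSucc 20971519, .ofNat 3927899, .ofNat 14619147, .ofNat 0, .ofNat 16069932, .negSucc 20971519], [.ofNat 22059832, .ofNat 16274588, .ofNat 0, .negSucc 72388403, .ofNat 12926344, .ofNat 47461048, .ofNat 0, .ofNat 51063808, .negSucc 65622851], .ofNat 0, .negSucc 4397, .ofNat 0, .ofNat 0⟩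

/-- Its row F. -/
def f43 : List ℤ := [.negSucc 17517537, .negSucc 5816715, .negSucc 4520542, .ofNat 0, .ofNat 20971520, .negSucc 3927898, .negSucc 14619146, .ofNat 0, .negSucc 16069931, .ofNat 20971520, .ofNat 22059832, .ofNat 16274588, .ofNat 0, .negSucc 72388403, .ofNat 12926344, .ofNat 47461048, .ofNat 0, .ofNat 51063808, .negSucc 65622851, .ofNat 0]

/-- A plane. -/
def p44 : Plane := ⟨[.ofNat 20971520, .ofNat 0, .ofNat 0, .negSucc 20971519, .ofNat 1829944, .ofNat 5248703, .ofNat 669045, .ofNat 20971520, .negSucc 17693396], [.ofNat 79416900, .ofNat 0, .ofNat 0, .negSucc 55474163, .ofNat 5989608, .ofNat 16993464, .ofNat 2251392, .ofNat 66401792, .negSucc 65184999], .ofNat 0, .negSucc 19787, .ofNat 0, .ofNat 0⟩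

/-- Its row F. -/
def f44 : List ℤ := [.negSucc 78696777, .negSucc 20971519, .ofNat 0, .ofNat 0, .ofNat 20971520, .negSucc 1829943, .negSucc 5248702, .negSucc 669044, .negSucc 20971519, .ofNat 17693397, .ofNat 79416900, .ofNat 0, .ofNat 0, .negSucc 55474163, .ofNat 5989608, .ofNat 16993464, .ofNat 2251392, .ofNat 66401792, .negSucc 65184999, .ofNat 0]

/-- A plane. -/
def p45 : Plane := ⟨[.ofNat 5162927, .ofNat 5416887, .ofNat 0, .negSucc 20971519, .ofNat 3494387, .ofNat 12402542, .ofNat 0, .ofNat 18131807, .negSucc 20971519], [.ofNat 19543580, .ofNat 19458800, .ofNat 0, .negSucc 72321911, .ofNat 11437096, .ofNat 40039864, .ofNat 0, .ofNat 57241188, .negSucc 65036943], .ofNat 0, .negSucc 3369, .ofNat 0, .ofNat 0⟩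

/-- Its row F. -/
def f45 : List ℤ := [.negSucc 15385583, .negSucc 5162926, .negSucc 5416886, .ofNat 0, .ofNat 20971520, .negSucc 3494386, .negSucc 12402541, .ofNat 0, .negSucc 18131806, .ofNat 20971520, .ofNat 19543580, .ofNat 19458800, .ofNat 0, .negSucc 72321911, .ofNat 11437096, .ofNat 40039864, .ofNat 0, .ofNat 57241188, .negSucc 65036943, .ofNat 0]

/-- A plane. -/
def p46 : Plane := ⟨[.ofNat 5242235, .ofNat 5582582, .ofNat 0, .negSucc 20971519, .ofNat 3355780, .ofNat 11556246, .ofNat 0, .ofNat 18906987, .negSucc 20971519], [.ofNat 19843784, .ofNat 20022808, .ofNat 0, .negSucc 72006271, .ofNat 10965836, .ofNat 37235476, .ofNat 0, .ofNat 59583328, .negSucc 65036943], .ofNat 0, .negSucc 3168, .ofNat 0, .ofNat 0⟩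

/-- Its row F. -/
def f46 : List ℤ := [.negSucc 15808113, .negSucc 5242234, .negSucc 5582581, .ofNat 0, .ofNat 20971520, .negSucc 3355779, .negSucc 11556245, .ofNat 0, .negSucc 18906986, .ofNat 20971520, .ofNat 19843784, .ofNat 20022808, .ofNat 0, .negSucc 72006271, .ofNat 10965836, .ofNat 37235476, .ofNat 0, .ofNat 59583328, .negSucc 65036943, .ofNat 0]

/-- A plane. -/
def p47 : Plane := ⟨[.ofNat 20971520, .ofNat 0, .ofNat 0, .negSucc 20971519, .ofNat 2067405, .ofNat 4820484, .ofNat 427567, .ofNat 20971520, .negSucc 17384871], [.ofNat 79263584, .ofNat 0, .ofNat 0, .negSucc 55428847, .ofNat 6717856, .ofNat 15487692, .ofNat 1429856, .ofNat 65838668, .negSucc 63522819], .ofNat 0, .negSucc 20469, .ofNat 0, .ofNat 0⟩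

/-- Its row F. -/
def f47 : List ℤ := [.negSucc 77726827, .negSucc 20971519, .ofNat 0, .ofNat 0, .ofNat 20971520, .negSucc 2067404, .negSucc 4820483, .negSucc 427566, .negSucc 20971519, .ofNat 17384872, .ofNat 79263584, .ofNat 0, .ofNat 0, .negSucc 55428847, .ofNat 6717856, .ofNat 15487692, .ofNat 1429856, .ofNat 65838668, .negSucc 63522819, .ofNat 0]

/-- A plane. -/
def p48 : Plane := ⟨[.ofNat 5098349, .ofNat 5488491, .ofNat 0, .negSucc 20971519, .ofNat 3482192, .ofNat 12215886, .ofNat 0, .ofNat 18289929, .negSucc 20971519], [.ofNat 19261596, .ofNat 19640620, .ofNat 0, .negSucc 71937683, .ofNat 11314664, .ofNat 39152608, .ofNat 0, .ofNat 57223248, .negSucc 64434199], .ofNat 0, .negSucc 3185, .ofNat 0, .ofNat 0⟩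

/-- Its row F. -/
def f48 : List ℤ := [.negSucc 15171717, .negSucc 5098348, .negSucc 5488490, .ofNat 0, .ofNat 20971520, .negSucc 3482191, .negSucc 12215885, .ofNat 0, .negSucc 18289928, .ofNat 20971520, .ofNat 19261596, .ofNat 19640620, .ofNat 0, .negSucc 71937683, .ofNat 11314664, .ofNat 39152608, .ofNat 0, .ofNat 57223248, .negSucc 64434199, .ofNat 0]

/-- A plane. -/
def p49 : Plane := ⟨[.ofNat 5260744, .ofNat 5551941, .ofNat 0, .negSucc 20971519, .ofNat 3392060, .ofNat 11601637, .ofNat 0, .ofNat 18847348, .negSucc 20971519], [.ofNat 19875124, .ofNat 19867676, .ofNat 0, .negSucc 71612175, .ofNat 11003472, .ofNat 37087924, .ofNat 0, .ofNat 58864472, .negSucc 64434199], .ofNat 0, .negSucc 3135, .ofNat 0, .ofNat 0⟩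

/-- Its row F. -/
def f49 : List ℤ := [.negSucc 15876931, .negSucc 5260743, .negSucc 5551940, .ofNat 0, .ofNat 20971520, .negSucc 3392059, .negSucc 11601636, .ofNat 0, .negSucc 18847347, .ofNat 20971520, .ofNat 19875124, .ofNat 19867676, .ofNat 0, .negSucc 71612175, .ofNat 11003472, .ofNat 37087924, .ofNat 0, .ofNat 58864472, .negSucc 64434199, .ofNat 0]

/-- A plane. -/
def p50 : Plane := ⟨[.ofNat 20971520, .ofNat 0, .ofNat 0, .negSucc 20971519, .ofNat 2398366, .ofNat 4256974, .ofNat 142366, .ofNat 20971520, .negSucc 17008062], [.ofNat 79105116, .ofNat 0, .ofNat 0, .negSucc 55359339, .ofNat 7734756, .ofNat 13568676, .ofNat 473028, .ofNat 65259208, .negSucc 61666703], .ofNat 0, .negSucc 20462, .ofNat 0, .ofNat 0⟩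

/-- Its row F. -/
def f50 : List ℤ := [.negSucc 76666227, .negSucc 20971519, .ofNat 0, .ofNat 0, .ofNat 20971520, .negSucc 2398365, .negSucc 4256973, .negSucc 142365, .negSucc 20971519, .ofNat 17008063, .ofNat 79105116, .ofNat 0, .ofNat 0, .negSucc 55359339, .ofNat 7734756, .ofNat 13568676, .ofNat 473028, .ofNat 65259208, .negSucc 61666703, .ofNat 0]

/-- A plane. -/
def p51 : Plane := ⟨[.ofNat 5114850, .ofNat 5447352, .ofNat 0, .negSucc 20971519, .ofNat 3511996, .ofNat 12338079, .ofNat 0, .ofNat 18171416, .negSucc 20971519], [.ofNat 19285024, .ofNat 19416152, .ofNat 0, .negSucc 71541443, .ofNat 11325792, .ofNat 39227124, .ofNat 0, .ofNat 56344356, .negSucc 63814291], .ofNat 0, .negSucc 3434, .ofNat 0, .ofNat 0⟩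

/-- Its row F. -/
def f51 : List ℤ := [.negSucc 15197247, .negSucc 5114849, .negSucc 5447351, .ofNat 0, .ofNat 20971520, .negSucc 3511995, .negSucc 12338078, .ofNat 0, .negSucc 18171415, .ofNat 20971520, .ofNat 19285024, .ofNat 19416152, .ofNat 0, .negSucc 71541443, .ofNat 11325792, .ofNat 39227124, .ofNat 0, .ofNat 56344356, .negSucc 63814291, .ofNat 0]

/-- A plane. -/
def p52 : Plane := ⟨[.ofNat 5244930, .ofNat 5582173, .ofNat 0, .negSucc 20971519, .ofNat 3389852, .ofNat 11487102, .ofNat 0, .ofNat 18940906, .negSucc 20971519], [.ofNat 19775476, .ofNat 19896696, .ofNat 0, .negSucc 71205799, .ofNat 10913028, .ofNat 36437396, .ofNat 0, .ofNat 58612584, .negSucc 63814291], .ofNat 0, .negSucc 3289, .ofNat 0, .ofNat 0⟩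

/-- Its row F. -/
def f52 : List ℤ := [.negSucc 15819749, .negSucc 5244929, .negSucc 5582172, .ofNat 0, .ofNat 20971520, .negSucc 3389851, .negSucc 11487101, .ofNat 0, .negSucc 18940905, .ofNat 20971520, .ofNat 19775476, .ofNat 19896696, .ofNat 0, .negSucc 71205799, .ofNat 10913028, .ofNat 36437396, .ofNat 0, .ofNat 58612584, .negSucc 63814291, .ofNat 0]

/-- A plane. -/
def p53 : Plane := ⟨[.ofNat 20971520, .ofNat 0, .ofNat 0, .negSucc 20971519, .ofNat 2557260, .ofNat 3989873, .ofNat 0, .ofNat 20971520, .negSucc 16827672], [.ofNat 78941336, .ofNat 0, .ofNat 0, .negSucc 55192279, .ofNat 8182928, .ofNat 12612612, .ofNat 0, .ofNat 64663064, .negSucc 60470519], .ofNat 0, .negSucc 20697, .ofNat 0, .ofNat 0⟩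

/-- Its row F. -/
def f53 : List ℤ := [.negSucc 76050923, .negSucc 20971519, .ofNat 0, .ofNat 0, .ofNat 20971520, .negSucc 2557259, .negSucc 3989872, .ofNat 0, .negSucc 20971519, .ofNat 16827673, .ofNat 78941336, .ofNat 0, .ofNat 0, .negSucc 55192279, .ofNat 8182928, .ofNat 12612612, .ofNat 0, .ofNat 64663064, .negSucc 60470519, .ofNat 0]

/-- A plane. -/
def p54 : Plane := ⟨[.ofNat 5094471, .ofNat 5450728, .ofNat 0, .negSucc 20971519, .ofNat 3537416, .ofNat 12327492, .ofNat 0, .ofNat 18163249, .negSucc 20971519], [.ofNat 19168128, .ofNat 19348400, .ofNat 0, .negSucc 71132871, .ofNat 11318872, .ofNat 38869808, .ofNat 0, .ofNat 55795656, .negSucc 63176887], .ofNat 0, .negSucc 3622, .ofNat 0, .ofNat 0⟩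

/-- Its row F. -/
def f54 : List ℤ := [.negSucc 15114329, .negSucc 5094470, .negSucc 5450727, .ofNat 0, .ofNat 20971520, .negSucc 3537415, .negSucc 12327491, .ofNat 0, .negSucc 18163248, .ofNat 20971520, .ofNat 19168128, .ofNat 19348400, .ofNat 0, .negSucc 71132871, .ofNat 11318872, .ofNat 38869808, .ofNat 0, .ofNat 55795656, .negSucc 63176887, .ofNat 0]

/-- A plane. -/
def p55 : Plane := ⟨[.ofNat 5253364, .ofNat 5565783, .ofNat 0, .negSucc 20971519, .ofNat 3403496, .ofNat 11528457, .ofNat 0, .ofNat 18898100, .negSucc 20971519], [.ofNat 19765968, .ofNat 19756808, .ofNat 0, .negSucc 70786827, .ofNat 10870860, .ofNat 36239772, .ofNat 0, .ofNat 57952444, .negSucc 63176887], .ofNat 0, .negSucc 3496, .ofNat 0, .ofNat 0⟩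

/-- Its row F. -/
def f55 : List ℤ := [.negSucc 15824957, .negSucc 5253363, .negSucc 5565782, .ofNat 0, .ofNat 20971520, .negSucc 3403495, .negSucc 11528456, .ofNat 0, .negSucc 18898099, .ofNat 20971520, .ofNat 19765968, .ofNat 19756808, .ofNat 0, .negSucc 70786827, .ofNat 10870860, .ofNat 36239772, .ofNat 0, .ofNat 57952444, .negSucc 63176887, .ofNat 0]

/-- A plane. -/
def p56 : Plane := ⟨[.ofNat 20971520, .ofNat 99932, .ofNat 0, .negSucc 20971519, .ofNat 2399594, .ofNat 3902785, .ofNat 0, .ofNat 20971520, .negSucc 16685694], [.ofNat 78772080, .ofNat 353804, .ofNat 0, .negSucc 54981487, .ofNat 7616340, .ofNat 12231908, .ofNat 0, .ofNat 64049916, .negSucc 59398211], .ofNat 0, .negSucc 22632, .ofNat 0, .ofNat 0⟩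

/-- Its row F. -/
def f56 : List ℤ := [.negSucc 75867157, .negSucc 20971519, .negSucc 99931, .ofNat 0, .ofNat 20971520, .negSucc 2399593, .negSucc 3902784, .ofNat 0, .negSucc 20971519, .ofNat 16685695, .ofNat 78772080, .ofNat 353804, .ofNat 0, .negSucc 54981487, .ofNat 7616340, .ofNat 12231908, .ofNat 0, .ofNat 64049916, .negSucc 59398211, .ofNat 0]

/-- A plane. -/
def p57 : Plane := ⟨[.ofNat 5070398, .ofNat 5464005, .ofNat 0, .negSucc 20971519, .ofNat 3549043, .ofNat 12299591, .ofNat 0, .ofNat 18177952, .negSucc 20971519], [.ofNat 19036348, .ofNat 19321660, .ofNat 0, .negSucc 70711647, .ofNat 11264256, .ofNat 38436776, .ofNat 0, .ofNat 55307156, .negSucc 62521667], .ofNat 0, .negSucc 3577, .ofNat 0, .ofNat 0⟩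

/-- Its row F. -/
def f57 : List ℤ := [.negSucc 15022705, .negSucc 5070397, .negSucc 5464004, .ofNat 0, .ofNat 20971520, .negSucc 3549042, .negSucc 12299590, .ofNat 0, .negSucc 18177951, .ofNat 20971520, .ofNat 19036348, .ofNat 19321660, .ofNat 0, .negSucc 70711647, .ofNat 11264256, .ofNat 38436776, .ofNat 0, .ofNat 55307156, .negSucc 62521667, .ofNat 0]

/-- A plane. -/
def p58 : Plane := ⟨[.ofNat 5198050, .ofNat 5578385, .ofNat 0, .negSucc 20971519, .ofNat 3447074, .ofNat 11525943, .ofNat 0, .ofNat 18872251, .negSucc 20971519], [.ofNat 19507020, .ofNat 19708416, .ofNat 0, .negSucc 70354931, .ofNat 10920288, .ofNat 35925964, .ofNat 0, .ofNat 57306100, .negSucc 62521667], .ofNat 0, .negSucc 3334, .ofNat 0, .ofNat 0⟩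

/-- Its row F. -/
def f58 : List ℤ := [.negSucc 15618379, .negSucc 5198049, .negSucc 5578384, .ofNat 0, .ofNat 20971520, .negSucc 3447073, .negSucc 11525942, .ofNat 0, .negSucc 18872250, .ofNat 20971520, .ofNat 19507020, .ofNat 19708416, .ofNat 0, .negSucc 70354931, .ofNat 10920288, .ofNat 35925964, .ofNat 0, .ofNat 57306100, .negSucc 62521667, .ofNat 0]

/-- A plane. -/
def p59 : Plane := ⟨[.ofNat 20971520, .ofNat 0, .ofNat 0, .negSucc 20971519, .ofNat 2468012, .ofNat 4108860, .ofNat 0, .ofNat 20971520, .negSucc 16865072], [.ofNat 78597164, .ofNat 0, .ofNat 0, .negSucc 54708235, .ofNat 7782296, .ofNat 12763588, .ofNat 0, .ofNat 63419428, .negSucc 59333783], .ofNat 0, .negSucc 22621, .ofNat 0, .ofNat 0⟩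

/-- Its row F. -/
def f59 : List ℤ := [.negSucc 75629029, .negSucc 20971519, .ofNat 0, .ofNat 0, .ofNat 20971520, .negSucc 2468011, .negSucc 4108859, .ofNat 0, .negSucc 20971519, .ofNat 16865073, .ofNat 78597164, .ofNat 0, .ofNat 0, .negSucc 54708235, .ofNat 7782296, .ofNat 12763588, .ofNat 0, .ofNat 63419428, .negSucc 59333783, .ofNat 0]

/-- A plane. -/
def p60 : Plane := ⟨[.ofNat 5046486, .ofNat 5435354, .ofNat 0, .negSucc 20971519, .ofNat 3614764, .ofNat 12391987, .ofNat 0, .ofNat 18061314, .negSucc 20971519], [.ofNat 18912812, .ofNat 19135888, .ofNat 0, .negSucc 70277447, .ofNat 11376592, .ofNat 38371760, .ofNat 0, .ofNat 54406824, .negSucc 61848323], .ofNat 0, .negSucc 3666, .ofNat 0, .ofNat 0⟩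

/-- Its row F. -/
def f60 : List ℤ := [.negSucc 14935143, .negSucc 5046485, .negSucc 5435353, .ofNat 0, .ofNat 20971520, .negSucc 3614763, .negSucc 12391986, .ofNat 0, .negSucc 18061313, .ofNat 20971520, .ofNat 18912812, .ofNat 19135888, .ofNat 0, .negSucc 70277447, .ofNat 11376592, .ofNat 38371760, .ofNat 0, .ofNat 54406824, .negSucc 61848323, .ofNat 0]

/-- A plane. -/
def p61 : Plane := ⟨[.ofNat 5201709, .ofNat 5637302, .ofNat 0, .negSucc 20971519, .ofNat 3387109, .ofNat 11315606, .ofNat 0, .ofNat 19079804, .negSucc 20971519], [.ofNat 19476784, .ofNat 19828396, .ofNat 0, .negSucc 69909787, .ofNat 10639544, .ofNat 34976532, .ofNat 0, .ofNat 57329464, .negSucc 61848323], .ofNat 0, .negSucc 3448, .ofNat 0, .ofNat 0⟩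

/-- Its row F. -/
def f61 : List ℤ := [.negSucc 15621337, .negSucc 5201708, .negSucc 5637301, .ofNat 0, .ofNat 20971520, .negSucc 3387108, .negSucc 11315605, .ofNat 0, .negSucc 19079803, .ofNat 20971520, .ofNat 19476784, .ofNat 19828396, .ofNat 0, .negSucc 69909787, .ofNat 10639544, .ofNat 34976532, .ofNat 0, .ofNat 57329464, .negSucc 61848323, .ofNat 0]

/-- A plane. -/
def p62 : Plane := ⟨[.ofNat 20971520, .ofNat 0, .ofNat 0, .negSucc 20971519, .ofNat 2474359, .ofNat 4100884, .ofNat 0, .ofNat 20971520, .negSucc 16863067], [.ofNat 78416420, .ofNat 0, .ofNat 0, .negSucc 54359547, .ofNat 7734932, .ofNat 12621572, .ofNat 0, .ofNat 62771280, .negSucc 58739071], .ofNat 0, .negSucc 22317, .ofNat 0, .ofNat 0⟩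

/-- Its row F. -/
def f62 : List ℤ := [.negSucc 75479141, .negSucc 20971519, .ofNat 0, .ofNat 0, .ofNat 20971520, .negSucc 2474358, .negSucc 4100883, .ofNat 0, .negSucc 20971519, .ofNat 16863068, .ofNat 78416420, .ofNat 0, .ofNat 0, .negSucc 54359547, .ofNat 7734932, .ofNat 12621572, .ofNat 0, .ofNat 62771280, .negSucc 58739071, .ofNat 0]

/-- A plane. -/
def p63 : Plane := ⟨[.ofNat 4969562, .ofNat 5519578, .ofNat 0, .negSucc 20971519, .ofNat 3597407, .ofNat 12178394, .ofNat 0, .ofNat 18244888, .negSucc 20971519], [.ofNat 18581684, .ofNat 19343916, .ofNat 0, .negSucc 69829927, .ofNat 11223392, .ofNat 37357232, .ofNat 0, .ofNat 54390076, .negSucc 61156523], .ofNat 0, .negSucc 3323, .ofNat 0, .ofNat 0⟩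

/-- Its row F. -/
def f63 : List ℤ := [.negSucc 14679469, .negSucc 4969561, .negSucc 5519577, .ofNat 0, .ofNat 20971520, .negSucc 3597406, .negSucc 12178393, .ofNat 0, .negSucc 18244887, .ofNat 20971520, .ofNat 18581684, .ofNat 19343916, .ofNat 0, .negSucc 69829927, .ofNat 11223392, .ofNat 37357232, .ofNat 0, .ofNat 54390076, .negSucc 61156523, .ofNat 0]

/-- A plane. -/
def p64 : Plane := ⟨[.ofNat 5182303, .ofNat 5713214, .ofNat 0, .negSucc 20971519, .ofNat 3330858, .ofNat 11067694, .ofNat 0, .ofNat 19315583, .negSucc 20971519], [.ofNat 19358860, .ofNat 20003208, .ofNat 0, .negSucc 69451043, .ofNat 10370992, .ofNat 33885940, .ofNat 0, .ofNat 57434056, .negSucc 61156523], .ofNat 0, .negSucc 3472, .ofNat 0, .ofNat 0⟩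

/-- Its row F. -/
def f64 : List ℤ := [.negSucc 15550805, .negSucc 5182302, .negSucc 5713213, .ofNat 0, .ofNat 20971520, .negSucc 3330857, .negSucc 11067693, .ofNat 0, .negSucc 19315582, .ofNat 20971520, .ofNat 19358860, .ofNat 20003208, .ofNat 0, .negSucc 69451043, .ofNat 10370992, .ofNat 33885940, .ofNat 0, .ofNat 57434056, .negSucc 61156523, .ofNat 0]

/-- A plane. -/
def p65 : Plane := ⟨[.ofNat 20971520, .ofNat 295545, .ofNat 0, .negSucc 20971519, .ofNat 2156886, .ofNat 3648676, .ofNat 0, .ofNat 20971520, .negSucc 16384422], [.ofNat 78229664, .ofNat 1024296, .ofNat 0, .negSucc 54057395, .ofNat 6682076, .ofNat 11122500, .ofNat 0, .ofNat 62105148, .negSucc 56684103], .ofNat 0, .negSucc 24763, .ofNat 0, .ofNat 0⟩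

/-- Its row F. -/
def f65 : List ℤ := [.negSucc 75418431, .negSucc 20971519, .negSucc 295544, .ofNat 0, .ofNat 20971520, .negSucc 2156885, .negSucc 3648675, .ofNat 0, .negSucc 20971519, .ofNat 16384423, .ofNat 78229664, .ofNat 1024296, .ofNat 0, .negSucc 54057395, .ofNat 6682076, .ofNat 11122500, .ofNat 0, .ofNat 62105148, .negSucc 56684103, .ofNat 0]

/-- A plane. -/
def p66 : Plane := ⟨[.ofNat 4961208, .ofNat 5632426, .ofNat 0, .negSucc 20971519, .ofNat 3474785, .ofNat 11830943, .ofNat 0, .ofNat 18602765, .negSucc 20971519], [.ofNat 18506260, .ofNat 19646228, .ofNat 0, .negSucc 69368747, .ofNat 10742868, .ofNat 35952248, .ofNat 0, .ofNat 54849536, .negSucc 60445955], .ofNat 0, .negSucc 3327, .ofNat 0, .ofNat 0⟩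

/-- Its row F. -/
def f66 : List ℤ := [.negSucc 14640041, .negSucc 4961207, .negSucc 5632425, .ofNat 0, .ofNat 20971520, .negSucc 3474784, .negSucc 11830942, .ofNat 0, .negSucc 18602764, .ofNat 20971520, .ofNat 18506260, .ofNat 19646228, .ofNat 0, .negSucc 69368747, .ofNat 10742868, .ofNat 35952248, .ofNat 0, .ofNat 54849536, .negSucc 60445955, .ofNat 0]

/-- A plane. -/
def p67 : Plane := ⟨[.ofNat 5144871, .ofNat 5720401, .ofNat 0, .negSucc 20971519, .ofNat 3367733, .ofNat 11057885, .ofNat 0, .ofNat 19300204, .negSucc 20971519], [.ofNat 19172600, .ofNat 19933124, .ofNat 0, .negSucc 68978359, .ofNat 10390260, .ofNat 33525192, .ofNat 0, .ofNat 56762920, .negSucc 60445955], .ofNat 0, .negSucc 3260, .ofNat 0, .ofNat 0⟩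

/-- Its row F. -/
def f67 : List ℤ := [.negSucc 15416929, .negSucc 5144870, .negSucc 5720400, .ofNat 0, .ofNat 20971520, .negSucc 3367732, .negSucc 11057884, .ofNat 0, .negSucc 19300203, .ofNat 20971520, .ofNat 19172600, .ofNat 19933124, .ofNat 0, .negSucc 68978359, .ofNat 10390260, .ofNat 33525192, .ofNat 0, .ofNat 56762920, .negSucc 60445955, .ofNat 0]

/-- A plane. -/
def p68 : Plane := ⟨[.ofNat 20971520, .ofNat 441844, .ofNat 0, .negSucc 20971519, .ofNat 2001510, .ofNat 3426579, .ofNat 0, .ofNat 20971520, .negSucc 16150517], [.ofNat 78036700, .ofNat 1529628, .ofNat 0, .negSucc 53744339, .ofNat 6168712, .ofNat 10341864, .ofNat 0, .ofNat 61420696, .negSucc 55382963], .ofNat 0, .negSucc 26026, .ofNat 0, .ofNat 0⟩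

/-- Its row F. -/
def f68 : List ℤ := [.negSucc 75306667, .negSucc 20971519, .negSucc 441843, .ofNat 0, .ofNat 20971520, .negSucc 2001509, .negSucc 3426578, .ofNat 0, .negSucc 20971519, .ofNat 16150518, .ofNat 78036700, .ofNat 1529628, .ofNat 0, .negSucc 53744339, .ofNat 6168712, .ofNat 10341864, .ofNat 0, .ofNat 61420696, .negSucc 55382963, .ofNat 0]

/-- A plane. -/
def p69 : Plane := ⟨[.ofNat 4959851, .ofNat 5588280, .ofNat 0, .negSucc 20971519, .ofNat 3530220, .ofNat 11965847, .ofNat 0, .ofNat 18458144, .negSucc 20971519], [.ofNat 18455556, .ofNat 19396872, .ofNat 0, .negSucc 68893559, .ofNat 10817720, .ofNat 35997264, .ofNat 0, .ofNat 53809304, .negSucc 59716323], .ofNat 0, .negSucc 3510, .ofNat 0, .ofNat 0⟩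

/-- Its row F. -/
def f69 : List ℤ := [.negSucc 14608037, .negSucc 4959850, .negSucc 5588279, .ofNat 0, .ofNat 20971520, .negSucc 3530219, .negSucc 11965846, .ofNat 0, .negSucc 18458143, .ofNat 20971520, .ofNat 18455556, .ofNat 19396872, .ofNat 0, .negSucc 68893559, .ofNat 10817720, .ofNat 35997264, .ofNat 0, .ofNat 53809304, .negSucc 59716323, .ofNat 0]

/-- A plane. -/
def p70 : Plane := ⟨[.ofNat 5142971, .ofNat 5739809, .ofNat 0, .negSucc 20971519, .ofNat 3358236, .ofNat 10976636, .ofNat 0, .ofNat 19371690, .negSucc 20971519], [.ofNat 19117564, .ofNat 19902164, .ofNat 0, .negSucc 68491387, .ofNat 10262964, .ofNat 32939924, .ofNat 0, .ofNat 56331992, .negSucc 59716323], .ofNat 0, .negSucc 3347, .ofNat 0, .ofNat 0⟩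

/-- Its row F. -/
def f70 : List ℤ := [.negSucc 15394491, .negSucc 5142970, .negSucc 5739808, .ofNat 0, .ofNat 20971520, .negSucc 3358235, .negSucc 10976635, .ofNat 0, .negSucc 19371689, .ofNat 20971520, .ofNat 19117564, .ofNat 19902164, .ofNat 0, .negSucc 68491387, .ofNat 10262964, .ofNat 32939924, .ofNat 0, .ofNat 56331992, .negSucc 59716323, .ofNat 0]

/-- A plane. -/
def p71 : Plane := ⟨[.ofNat 20971520, .ofNat 536459, .ofNat 0, .negSucc 20971519, .ofNat 1901811, .ofNat 3283807, .ofNat 0, .ofNat 20971520, .negSucc 16000692], [.ofNat 77837332, .ofNat 1847580, .ofNat 0, .negSucc 53410923, .ofNat 5805764, .ofNat 9808892, .ofNat 0, .ofNat 60757268, .negSucc 54345099], .ofNat 0, .negSucc 26740, .ofNat 0, .ofNat 0⟩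

/-- Its row F. -/
def f71 : List ℤ := [.negSucc 75162333, .negSucc 20971519, .negSucc 536458, .ofNat 0, .ofNat 20971520, .negSucc 1901810, .negSucc 3283806, .ofNat 0, .negSucc 20971519, .ofNat 16000693, .ofNat 77837332, .ofNat 1847580, .ofNat 0, .negSucc 53410923, .ofNat 5805764, .ofNat 9808892, .ofNat 0, .ofNat 60757268, .negSucc 54345099, .ofNat 0]

/-- A plane. -/
def p72 : Plane := ⟨[.ofNat 4899386, .ofNat 5658446, .ofNat 0, .negSucc 20971519, .ofNat 3508734, .ofNat 11790796, .ofNat 0, .ofNat 18613327, .negSucc 20971519], [.ofNat 18183980, .ofNat 19540808, .ofNat 0, .negSucc 68404035, .ofNat 10647408, .ofNat 35091072, .ofNat 0, .ofNat 53638780, .negSucc 58967375], .ofNat 0, .negSucc 3124, .ofNat 0, .ofNat 0⟩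

/-- Its row F. -/
def f72 : List ℤ := [.negSucc 14399723, .negSucc 4899385, .negSucc 5658445, .ofNat 0, .ofNat 20971520, .negSucc 3508733, .negSucc 11790795, .ofNat 0, .negSucc 18613326, .ofNat 20971520, .ofNat 18183980, .ofNat 19540808, .ofNat 0, .negSucc 68404035, .ofNat 10647408, .ofNat 35091072, .ofNat 0, .ofNat 53638780, .negSucc 58967375, .ofNat 0]

/-- A plane. -/
def p73 : Plane := ⟨[.ofNat 5128594, .ofNat 5754488, .ofNat 0, .negSucc 20971519, .ofNat 3367431, .ofNat 10917163, .ofNat 0, .ofNat 19413980, .negSucc 20971519], [.ofNat 19014716, .ofNat 19851108, .ofNat 0, .negSucc 67989799, .ofNat 10195732, .ofNat 32398164, .ofNat 0, .ofNat 55805676, .negSucc 58967375], .ofNat 0, .negSucc 3409, .ofNat 0, .ofNat 0⟩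

/-- Its row F. -/
def f73 : List ℤ := [.negSucc 15332387, .negSucc 5128593, .negSucc 5754487, .ofNat 0, .ofNat 20971520, .negSucc 3367430, .negSucc 10917162, .ofNat 0, .negSucc 19413979, .ofNat 20971520, .ofNat 19014716, .ofNat 19851108, .ofNat 0, .negSucc 67989799, .ofNat 10195732, .ofNat 32398164, .ofNat 0, .ofNat 55805676, .negSucc 58967375, .ofNat 0]

/-- A plane. -/
def p74 : Plane := ⟨[.ofNat 20971520, .ofNat 678636, .ofNat 0, .negSucc 20971519, .ofNat 1753571, .ofNat 3068969, .ofNat 0, .ofNat 20971520, .negSucc 15776472], [.ofNat 77631356, .ofNat 2324716, .ofNat 0, .negSucc 53073119, .ofNat 5300436, .ofNat 9069124, .ofNat 0, .ofNat 60036340, .negSucc 53049035], .ofNat 0, .negSucc 27975, .ofNat 0, .ofNat 0⟩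

/-- Its row F. -/
def f74 : List ℤ := [.negSucc 75031233, .negSucc 20971519, .negSucc 678635, .ofNat 0, .ofNat 20971520, .negSucc 1753570, .negSucc 3068968, .ofNat 0, .negSucc 20971519, .ofNat 15776473, .ofNat 77631356, .ofNat 2324716, .ofNat 0, .negSucc 53073119, .ofNat 5300436, .ofNat 9069124, .ofNat 0, .ofNat 60036340, .negSucc 53049035, .ofNat 0]

/-- A plane. -/
def p75 : Plane := ⟨[.ofNat 4907472, .ofNat 5634517, .ofNat 0, .negSucc 20971519, .ofNat 3526704, .ofNat 11864278, .ofNat 0, .ofNat 18541884, .negSucc 20971519], [.ofNat 18165788, .ofNat 19355876, .ofNat 0, .negSucc 67899835, .ofNat 10593988, .ofNat 34927280, .ofNat 0, .ofNat 52787724, .negSucc 58198847], .ofNat 0, .negSucc 3258, .ofNat 0, .ofNat 0⟩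

/-- Its row F. -/
def f75 : List ℤ := [.negSucc 14393795, .negSucc 4907471, .negSucc 5634516, .ofNat 0, .ofNat 20971520, .negSucc 3526703, .negSucc 11864277, .ofNat 0, .negSucc 18541883, .ofNat 20971520, .ofNat 18165788, .ofNat 19355876, .ofNat 0, .negSucc 67899835, .ofNat 10593988, .ofNat 34927280, .ofNat 0, .ofNat 52787724, .negSucc 58198847, .ofNat 0]

/-- A plane. -/
def p76 : Plane := ⟨[.ofNat 5096846, .ofNat 5798967, .ofNat 0, .negSucc 20971519, .ofNat 3364787, .ofNat 10765469, .ofNat 0, .ofNat 19538883, .negSucc 20971519], [.ofNat 18866788, .ofNat 19898584, .ofNat 0, .negSucc 67473247, .ofNat 10084088, .ofNat 31599312, .ofNat 0, .ofNat 55473360, .negSucc 58198847], .ofNat 0, .negSucc 3058, .ofNat 0, .ofNat 0⟩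

/-- Its row F. -/
def f76 : List ℤ := [.negSucc 15250129, .negSucc 5096845, .negSucc 5798966, .ofNat 0, .ofNat 20971520, .negSucc 3364786, .negSucc 10765468, .ofNat 0, .negSucc 19538882, .ofNat 20971520, .ofNat 18866788, .ofNat 19898584, .ofNat 0, .negSucc 67473247, .ofNat 10084088, .ofNat 31599312, .ofNat 0, .ofNat 55473360, .negSucc 58198847, .ofNat 0]

/-- A plane. -/
def p77 : Plane := ⟨[.ofNat 20971520, .ofNat 891864, .ofNat 0, .negSucc 20971519, .ofNat 1533937, .ofNat 2749157, .ofNat 0, .ofNat 20971520, .negSucc 15444450], [.ofNat 77460736, .ofNat 3038172, .ofNat 0, .negSucc 52783051, .ofNat 4589096, .ofNat 8033820, .ofNat 0, .ofNat 59296264, .negSucc 51422167], .ofNat 0, .negSucc 30226, .ofNat 0, .ofNat 0⟩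

/-- Its row F. -/
def f77 : List ℤ := [.negSucc 74961227, .negSucc 20971519, .negSucc 891863, .ofNat 0, .ofNat 20971520, .negSucc 1533936, .negSucc 2749156, .ofNat 0, .negSucc 20971519, .ofNat 15444451, .ofNat 77460736, .ofNat 3038172, .ofNat 0, .negSucc 52783051, .ofNat 4589096, .ofNat 8033820, .ofNat 0, .ofNat 59296264, .negSucc 51422167, .ofNat 0]

/-- A plane. -/
def p78 : Plane := ⟨[.ofNat 4899389, .ofNat 5686972, .ofNat 0, .negSucc 20971519, .ofNat 3483887, .ofNat 11684645, .ofNat 0, .ofNat 18714245, .negSucc 20971519], [.ofNat 18091248, .ofNat 19435212, .ofNat 0, .negSucc 67380595, .ofNat 10355756, .ofNat 34011464, .ofNat 0, .ofNat 52607216, .negSucc 57410463], .ofNat 0, .negSucc 3215, .ofNat 0, .ofNat 0⟩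

/-- Its row F. -/
def f78 : List ℤ := [.negSucc 14361043, .negSucc 4899388, .negSucc 5686971, .ofNat 0, .ofNat 20971520, .negSucc 3483886, .negSucc 11684644, .ofNat 0, .negSucc 18714244, .ofNat 20971520, .ofNat 18091248, .ofNat 19435212, .ofNat 0, .negSucc 67380595, .ofNat 10355756, .ofNat 34011464, .ofNat 0, .ofNat 52607216, .negSucc 57410463, .ofNat 0]

/-- A plane. -/
def p79 : Plane := ⟨[.ofNat 5097510, .ofNat 5804130, .ofNat 0, .negSucc 20971519, .ofNat 3371501, .ofNat 10721239, .ofNat 0, .ofNat 19570505, .negSucc 20971519], [.ofNat 18817520, .ofNat 19801204, .ofNat 0, .negSucc 66941367, .ofNat 9997480, .ofNat 31132700, .ofNat 0, .ofNat 54843844, .negSucc 57410463], .ofNat 0, .negSucc 3103, .ofNat 0, .ofNat 0⟩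

/-- Its row F. -/
def f79 : List ℤ := [.negSucc 15231933, .negSucc 5097509, .negSucc 5804129, .ofNat 0, .ofNat 20971520, .negSucc 3371500, .negSucc 10721238, .ofNat 0, .negSucc 19570504, .ofNat 20971520, .ofNat 18817520, .ofNat 19801204, .ofNat 0, .negSucc 66941367, .ofNat 9997480, .ofNat 31132700, .ofNat 0, .ofNat 54843844, .negSucc 57410463, .ofNat 0]

/-- A plane. -/
def p80 : Plane := ⟨[.ofNat 15501866, .ofNat 3658900, .ofNat 0, .negSucc 20971519, .ofNat 1268389, .ofNat 3028539, .ofNat 0, .ofNat 20971520, .negSucc 15539564], [.ofNat 57096504, .ofNat 12421244, .ofNat 0, .negSucc 56675491, .ofNat 3754316, .ofNat 8748156, .ofNat 0, .ofNat 58536732, .negSucc 48430815], .ofNat 0, .negSucc 18373, .ofNat 0, .ofNat 0⟩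

/-- Its row F. -/
def f80 : List ℤ := [.negSucc 55028281, .negSucc 15501865, .negSucc 3658899, .ofNat 0, .ofNat 20971520, .negSucc 1268388, .negSucc 3028538, .ofNat 0, .negSucc 20971519, .ofNat 15539565, .ofNat 57096504, .ofNat 12421244, .ofNat 0, .negSucc 56675491, .ofNat 3754316, .ofNat 8748156, .ofNat 0, .ofNat 58536732, .negSucc 48430815, .ofNat 0]

/-- A plane. -/
def p81 : Plane := ⟨[.ofNat 4861855, .ofNat 5732886, .ofNat 0, .negSucc 20971519, .ofNat 3473016, .ofNat 11557163, .ofNat 0, .ofNat 18824548, .negSucc 20971519], [.ofNat 17917524, .ofNat 19499152, .ofNat 0, .negSucc 66924271, .ofNat 10223976, .ofNat 33306360, .ofNat 0, .ofNat 52324876, .negSucc 56718859], .ofNat 0, .negSucc 3173, .ofNat 0, .ofNat 0⟩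

/-- Its row F. -/
def f81 : List ℤ := [.negSucc 14238307, .negSucc 4861854, .negSucc 5732885, .ofNat 0, .ofNat 20971520, .negSucc 3473015, .negSucc 11557162, .ofNat 0, .negSucc 18824547, .ofNat 20971520, .ofNat 17917524, .ofNat 19499152, .ofNat 0, .negSucc 66924271, .ofNat 10223976, .ofNat 33306360, .ofNat 0, .ofNat 52324876, .negSucc 56718859, .ofNat 0]

/-- A plane. -/
def p82 : Plane := ⟨[.ofNat 5066665, .ofNat 5960690, .ofNat 0, .negSucc 20971519, .ofNat 3240845, .ofNat 10209347, .ofNat 0, .ofNat 20068020, .negSucc 20971519], [.ofNat 18650552, .ofNat 20249680, .ofNat 0, .negSucc 66474347, .ofNat 9522556, .ofNat 29341912, .ofNat 0, .ofNat 55604196, .negSucc 56718859], .ofNat 0, .negSucc 2940, .ofNat 0, .ofNat 0⟩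

/-- Its row F. -/
def f82 : List ℤ := [.negSucc 15140439, .negSucc 5066664, .negSucc 5960689, .ofNat 0, .ofNat 20971520, .negSucc 3240844, .negSucc 10209346, .ofNat 0, .negSucc 20068019, .ofNat 20971520, .ofNat 18650552, .ofNat 20249680, .ofNat 0, .negSucc 66474347, .ofNat 9522556, .ofNat 29341912, .ofNat 0, .ofNat 55604196, .negSucc 56718859, .ofNat 0]

/-- A plane. -/
def p83 : Plane := ⟨[.ofNat 20971520, .ofNat 1405884, .ofNat 938843, .negSucc 20971519, .ofNat 986347, .ofNat 1810820, .ofNat 0, .ofNat 20971520, .negSucc 14894005], [.ofNat 76971784, .ofNat 4733184, .ofNat 3085500, .negSucc 50760351, .ofNat 2880000, .ofNat 5207648, .ofNat 0, .ofNat 57957744, .negSucc 49613903], .ofNat 0, .negSucc 45824, .ofNat 0, .ofNat 0⟩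

/-- Its row F. -/
def f83 : List ℤ := [.negSucc 78392741, .negSucc 20971519, .negSucc 1405883, .negSucc 938842, .ofNat 20971520, .negSucc 986346, .negSucc 1810819, .ofNat 0, .negSucc 20971519, .ofNat 14894006, .ofNat 76971784, .ofNat 4733184, .ofNat 3085500, .negSucc 50760351, .ofNat 2880000, .ofNat 5207648, .ofNat 0, .ofNat 57957744, .negSucc 49613903, .ofNat 0]

/-- A plane. -/
def p84 : Plane := ⟨[.ofNat 4856511, .ofNat 5744842, .ofNat 0, .negSucc 20971519, .ofNat 3467638, .ofNat 11515803, .ofNat 0, .ofNat 18861418, .negSucc 20971519], [.ofNat 17860756, .ofNat 19458620, .ofNat 0, .negSucc 66532491, .ofNat 10126040, .ofNat 32883568, .ofNat 0, .ofNat 51938704, .negSucc 56128163], .ofNat 0, .negSucc 3245, .ofNat 0, .ofNat 0⟩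

/-- Its row F. -/
def f84 : List ℤ := [.negSucc 14201227, .negSucc 4856510, .negSucc 5744841, .ofNat 0, .ofNat 20971520, .negSucc 3467637, .negSucc 11515802, .ofNat 0, .negSucc 18861417, .ofNat 20971520, .ofNat 17860756, .ofNat 19458620, .ofNat 0, .negSucc 66532491, .ofNat 10126040, .ofNat 32883568, .ofNat 0, .ofNat 51938704, .negSucc 56128163, .ofNat 0]

/-- A plane. -/
def p85 : Plane := ⟨[.ofNat 5097753, .ofNat 6064605, .ofNat 0, .negSucc 20971519, .ofNat 3100142, .ofNat 9838317, .ofNat 0, .ofNat 20456790, .negSucc 20971519], [.ofNat 18725556, .ofNat 20516432, .ofNat 0, .negSucc 66073151, .ofNat 9035388, .ofNat 28029316, .ofNat 0, .ofNat 56130096, .negSucc 56128163], .ofNat 0, .negSucc 2910, .ofNat 0, .ofNat 0⟩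

/-- Its row F. -/
def f85 : List ℤ := [.negSucc 15235987, .negSucc 5097752, .negSucc 6064604, .ofNat 0, .ofNat 20971520, .negSucc 3100141, .negSucc 9838316, .ofNat 0, .negSucc 20456789, .ofNat 20971520, .ofNat 18725556, .ofNat 20516432, .ofNat 0, .negSucc 66073151, .ofNat 9035388, .ofNat 28029316, .ofNat 0, .ofNat 56130096, .negSucc 56128163, .ofNat 0]

/-- A plane. -/
def p86 : Plane := ⟨[.ofNat 20971520, .ofNat 1288055, .ofNat 591001, .negSucc 20971519, .ofNat 1133438, .ofNat 2028058, .ofNat 0, .ofNat 20971520, .negSucc 14980088], [.ofNat 76804256, .ofNat 4317296, .ofNat 1932480, .negSucc 50914743, .ofNat 3282124, .ofNat 5781704, .ofNat 0, .ofNat 57389764, .negSucc 49092155], .ofNat 0, .negSucc 43547, .ofNat 0, .ofNat 0⟩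

/-- Its row F. -/
def f86 : List ℤ := [.negSucc 76850385, .negSucc 20971519, .negSucc 1288054, .negSucc 591000, .ofNat 20971520, .negSucc 1133437, .negSucc 2028057, .ofNat 0, .negSucc 20971519, .ofNat 14980089, .ofNat 76804256, .ofNat 4317296, .ofNat 1932480, .negSucc 50914743, .ofNat 3282124, .ofNat 5781704, .ofNat 0, .ofNat 57389764, .negSucc 49092155, .ofNat 0]

/-- A plane. -/
def p87 : Plane := ⟨[.ofNat 4840722, .ofNat 5729090, .ofNat 0, .negSucc 20971519, .ofNat 3502676, .ofNat 11574912, .ofNat 0, .ofNat 18791430, .negSucc 20971519], [.ofNat 17764872, .ofNat 19322500, .ofNat 0, .negSucc 66132511, .ofNat 10143808, .ofNat 32780584, .ofNat 0, .ofNat 51212552, .negSucc 55526979], .ofNat 0, .negSucc 3026, .ofNat 0, .ofNat 0⟩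

/-- Its row F. -/
def f87 : List ℤ := [.negSucc 14132013, .negSucc 4840721, .negSucc 5729089, .ofNat 0, .ofNat 20971520, .negSucc 3502675, .negSucc 11574911, .ofNat 0, .negSucc 18791429, .ofNat 20971520, .ofNat 17764872, .ofNat 19322500, .ofNat 0, .negSucc 66132511, .ofNat 10143808, .ofNat 32780584, .ofNat 0, .ofNat 51212552, .negSucc 55526979, .ofNat 0]

/-- A plane. -/
def p88 : Plane := ⟨[.ofNat 5073210, .ofNat 5990456, .ofNat 0, .negSucc 20971519, .ofNat 3217593, .ofNat 10074175, .ofNat 0, .ofNat 20192242, .negSucc 20971519], [.ofNat 18595240, .ofNat 20178492, .ofNat 0, .negSucc 65663607, .ofNat 9295976, .ofNat 28444348, .ofNat 0, .ofNat 54851444, .negSucc 55526979], .ofNat 0, .negSucc 2773, .ofNat 0, .ofNat 0⟩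

/-- Its row F. -/
def f88 : List ℤ := [.negSucc 15135003, .negSucc 5073209, .negSucc 5990455, .ofNat 0, .ofNat 20971520, .negSucc 3217592, .negSucc 10074174, .ofNat 0, .negSucc 20192241, .ofNat 20971520, .ofNat 18595240, .ofNat 20178492, .ofNat 0, .negSucc 65663607, .ofNat 9295976, .ofNat 28444348, .ofNat 0, .ofNat 54851444, .negSucc 55526979, .ofNat 0]

/-- A plane. -/
def p89 : Plane := ⟨[.ofNat 20971520, .ofNat 1196974, .ofNat 213764, .negSucc 20971519, .ofNat 1254607, .ofNat 2212038, .ofNat 0, .ofNat 20971520, .negSucc 15018944], [.ofNat 76632804, .ofNat 3993784, .ofNat 695340, .negSucc 51137491, .ofNat 3621332, .ofNat 6249868, .ofNat 0, .ofNat 56811464, .negSucc 48395175], .ofNat 0, .negSucc 41712, .ofNat 0, .ofNat 0⟩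

/-- Its row F. -/
def f89 : List ℤ := [.negSucc 75200505, .negSucc 20971519, .negSucc 1196973, .negSucc 213763, .ofNat 20971520, .negSucc 1254606, .negSucc 2212037, .ofNat 0, .negSucc 20971519, .ofNat 15018945, .ofNat 76632804, .ofNat 3993784, .ofNat 695340, .negSucc 51137491, .ofNat 3621332, .ofNat 6249868, .ofNat 0, .ofNat 56811464, .negSucc 48395175, .ofNat 0]

/-- A plane. -/
def p90 : Plane := ⟨[.ofNat 4801963, .ofNat 5827803, .ofNat 0, .negSucc 20971519, .ofNat 3420078, .ofNat 11305048, .ofNat 0, .ofNat 19062147, .negSucc 20971519], [.ofNat 17584232, .ofNat 19569392, .ofNat 0, .negSucc 65777487, .ofNat 9832916, .ofNat 31767096, .ofNat 0, .ofNat 51489768, .negSucc 54994055], .ofNat 0, .negSucc 2813, .ofNat 0, .ofNat 0⟩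

/-- Its row F. -/
def f90 : List ℤ := [.negSucc 13990093, .negSucc 4801962, .negSucc 5827802, .ofNat 0, .ofNat 20971520, .negSucc 3420077, .negSucc 11305047, .ofNat 0, .negSucc 19062146, .ofNat 20971520, .ofNat 17584232, .ofNat 19569392, .ofNat 0, .negSucc 65777487, .ofNat 9832916, .ofNat 31767096, .ofNat 0, .ofNat 51489768, .negSucc 54994055, .ofNat 0]

/-- A plane. -/
def p91 : Plane := ⟨[.ofNat 5093404, .ofNat 6028440, .ofNat 0, .negSucc 20971519, .ofNat 3150755, .ofNat 9945663, .ofNat 0, .ofNat 20337850, .negSucc 20971519], [.ofNat 18627992, .ofNat 20216872, .ofNat 0, .negSucc 65300371, .ofNat 9036704, .ofNat 27857464, .ofNat 0, .ofNat 54756356, .negSucc 54994055], .ofNat 0, .negSucc 3087, .ofNat 0, .ofNat 0⟩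

/-- Its row F. -/
def f91 : List ℤ := [.negSucc 15169599, .negSucc 5093403, .negSucc 6028439, .ofNat 0, .ofNat 20971520, .negSucc 3150754, .negSucc 9945662, .ofNat 0, .negSucc 20337849, .ofNat 20971520, .ofNat 18627992, .ofNat 20216872, .ofNat 0, .negSucc 65300371, .ofNat 9036704, .ofNat 27857464, .ofNat 0, .ofNat 54756356, .negSucc 54994055, .ofNat 0]

/-- A plane. -/
def p92 : Plane := ⟨[.ofNat 20971520, .ofNat 1642091, .ofNat 1797365, .negSucc 20971519, .ofNat 569833, .ofNat 1480230, .ofNat 0, .ofNat 20971520, .negSucc 14795620], [.ofNat 76553832, .ofNat 5424968, .ofNat 5785120, .negSucc 48988099, .ofNat 1621764, .ofNat 4120944, .ofNat 0, .ofNat 56182908, .negSucc 48418559], .ofNat 0, .negSucc 60791, .ofNat 0, .ofNat 0⟩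

/-- Its row F. -/
def f92 : List ℤ := [.negSucc 81113331, .negSucc 20971519, .negSucc 1642090, .negSucc 1797364, .ofNat 20971520, .negSucc 569832, .negSucc 1480229, .ofNat 0, .negSucc 20971519, .ofNat 14795621, .ofNat 76553832, .ofNat 5424968, .ofNat 5785120, .negSucc 48988099, .ofNat 1621764, .ofNat 4120944, .ofNat 0, .ofNat 56182908, .negSucc 48418559, .ofNat 0]

/-- A part of the planes. -/
def planesC0 : List Plane := [p0, p1, p2, p3, p4, p5, p6, p7, p8, p9, p10, p11, p12, p13, p14, p15, p16, p17, p18, p19, p20, p21, p22, p23, p24, p25, p26, p27, p28, p29, p30, p31, p32, p33, p34, p35, p36, p37, p38, p39, p40, p41, p42, p43, p44, p45, p46, p47, p48, p49]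

/-- A part of the planes. -/
def planesC1 : List Plane := [p50, p51, p52, p53, p54, p55, p56, p57, p58, p59, p60, p61, p62, p63, p64, p65, p66, p67, p68, p69, p70, p71, p72, p73, p74, p75, p76, p77, p78, p79, p80, p81, p82, p83, p84, p85, p86, p87, p88, p89, p90, p91, p92]

/-- The list of planes. -/
def planes : List Plane := planesC0 ++ planesC1

/-- A part of the forms of row F. -/
def zFC0 : List (List ℤ) := [f0, f1, f2, f3, f4, f5, f6, f7, f8, f9, f10, f11, f12, f13, f14, f15, f16, f17, f18, f19, f20, f21, f22, f23, f24, f25, f26, f27, f28, f29, f30, f31, f32, f33, f34, f35, f36, f37, f38, f39, f40, f41, f42, f43, f44, f45, f46, f47, f48, f49]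

/-- A part of the forms of row F. -/
def zFC1 : List (List ℤ) := [f50, f51, f52, f53, f54, f55, f56, f57, f58, f59, f60, f61, f62, f63, f64, f65, f66, f67, f68, f69, f70, f71, f72, f73, f74, f75, f76, f77, f78, f79, f80, f81, f82, f83, f84, f85, f86, f87, f88, f89, f90, f91, f92]

/-- The forms of row F. -/
def zF : List (List ℤ) := zFC0 ++ zFC1

/-- The forms of row D. -/
def zD : List (List ℤ) := []

/-- A bound for the sizes of the forms. -/
def LL : ℕ := 556214698

theorem hLL : LL ≤ 2 ^ cfgD.b := by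
  decide +kernel

theorem hSF : ∀ z ∈ zF, linS z ≤ LL := by
  decide +kernel

theorem hSD : ∀ z ∈ zD, linS z ≤ LL := by
  decide +kernel

theorem hS0 : ∀ z ∈ ([] : List (List ℤ)), linS z ≤ LL := by
  decide +kernel

/-- The forms are those of the planes. -/
theorem zF_eq : formsF X9 planes = zF := by
  decide +kernel

/-- The lengths of the lists. -/
theorem lengths : ∀ p ∈ planes, p.A.length = X9.length ∧ p.C.length = X9.length := by
  decide +kernel

end Vale.Agent.P154.Hel.Direct.R4
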